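import Vale.Agent.P011LD.H90
import Vale.Agent.P011.W.Eich
import Vale.Agent.P011.Arith.Schilling

/-!
The arithmetic input, over the fixed field of an open subgroup.
-/

namespace Vale.Agent.P011LR

open Vale.Agent.P011LD IntermediateField Matrix

variable {k K : Type} [Field k] [Field K] [Algebra k K] {Γ : Subgroup (K ≃ₐ[k] K)}

theorem mem_ff {x : K} : x ∈ fixedField Γ ↔ ∀ σ ∈ Γ, σ x = x :=
  ⟨fun h σ s => h ⟨σ, s⟩, fun h σ => h σ.1 σ.2⟩

theorem fin_ff [IsGalois k K] (h : Op ⊤ (· ∈ Γ)) : FiniteDimensional k (fixedField Γ) := by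
  obtain ⟨S, hS⟩ := h
  have : FiniteDimensional k (adjoin k (S : Set K)) :=
    finiteDimensional_adjoin fun x _ => Algebra.IsIntegral.isIntegral x
  have l : fixedField Γ ≤ adjoin k (S : Set K) := fun x hx => fixed_sub _ fun σ s =>
    mem_ff.1 hx σ (hS σ trivial fun y hy => s ⟨y, subset_adjoin _ _ hy⟩)
  exact Module.Finite.of_injective (inclusion l).toLinearMap (inclusion l).injective

/-- The coordinates of a fixed point in a basis of fixed points. -/
theorem coord {V ι : Type} [AddCommGroup V] [Module K V] [Fintype ι] {a : (K ≃ₐ[k] K) → V → V}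
    (h : Sl Γ a) (b : Module.Basis ι K V) (hb : ∀ i, b i ∈ Fx Γ a) {x : V} (hx : x ∈ Fx Γ a)
    (i : ι) : b.repr x i ∈ fixedField Γ := mem_ff.2 fun σ s => by
  have e := hx σ s
  conv_lhs at e => rw [← b.sum_repr x, h.sum s]
  simp only [h.smul σ s, hb _ σ s] at e
  have := congrArg (b.repr · i) e
  simpa only [Module.Basis.repr_sum_self] using this

variable [NumberField k] [IsAlgClosure k K]

theorem nf_ff (h : Op ⊤ (· ∈ Γ)) : NumberField (fixedField Γ) :=
  have := fin_ff h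
  NumberField.of_module_finite k _

/-- Norms of quaternions over a totally imaginary field. -/
theorem qn (h : Op ⊤ (· ∈ Γ)) {i : K} (hi : i * i = -1) (hi' : ∀ σ ∈ Γ, σ i = i) {a b c : K}
    (a0 : a ≠ 0) (b0 : b ≠ 0) (c0 : c ≠ 0) (ha : ∀ σ ∈ Γ, σ a = a) (hb : ∀ σ ∈ Γ, σ b = b)
    (hc : ∀ σ ∈ Γ, σ c = c) : ∃ x y z t : K, (∀ σ ∈ Γ, σ x = x ∧ σ y = y ∧ σ z = z ∧ σ t = t) ∧
      c = x ^ 2 - a * y ^ 2 - b * z ^ 2 + a * b * t ^ 2 := by
  have := nf_ff h
  have u : ∀ {a : K} (ha : ∀ σ ∈ Γ, σ a = a), a ≠ 0 → (⟨a, mem_ff.2 ha⟩ : fixedField Γ) ≠ 0 :=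
    fun ha a0 e => a0 (congrArg Subtype.val e)
  obtain ⟨x, y, z, t, e⟩ := P011.Arith.Sch.quaternion_norm (Units.mk0 _ (u ha a0))
    (Units.mk0 _ (u hb b0)) (Units.mk0 _ (u hc c0)) fun φ _ _ => by
      have e : (⟨i, mem_ff.2 hi'⟩ : fixedField Γ) * ⟨i, mem_ff.2 hi'⟩ = -1 := Subtype.ext hi
      have := congrArg φ e
      rw [map_mul, map_neg, map_one] at this
      nlinarith [mul_self_nonneg (φ ⟨i, mem_ff.2 hi'⟩)]
  exact ⟨x, y, z, t, fun σ s => ⟨mem_ff.1 x.2 σ s, mem_ff.1 y.2 σ s, mem_ff.1 z.2 σ s,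
    mem_ff.1 t.2 σ s⟩, by simpa using congrArg Subtype.val e⟩

/-- Reduced norms in degree three. -/
theorem eich (h : Op ⊤ (· ∈ Γ))
    {A : (K ≃ₐ[k] K) → Matrix (Fin 3) (Fin 3) K → Matrix (Fin 3) (Fin 3) K} (hA : Sl Γ A)
    (hm : ∀ σ ∈ Γ, ∀ M N, A σ (M * N) = A σ M * A σ N) (h1 : ∀ σ ∈ Γ, A σ 1 = 1) {y : K}
    (hy : ∀ σ ∈ Γ, σ y = y) : ∃ M ∈ Fx Γ A, M ≠ 0 ∧ M.det = 0 ∨ M.det = y := by
  by_cases y0 : y = 0
  · exact ⟨0, hA.zero_mem, Or.inr (by simp [y0])⟩
  by_contra hc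
  have := nf_ff h
  let D : Subalgebra (fixedField Γ) (Matrix (Fin 3) (Fin 3) K) :=
    { carrier := Fx Γ A
      mul_mem' := fun hx hy σ s => by rw [hm σ s, hx σ s, hy σ s]
      add_mem' := hA.add_mem
      algebraMap_mem' := fun c => by
        rw [Algebra.algebraMap_eq_smul_one]
        exact hA.smul_mem (mem_ff.1 c.2) h1 }
  obtain ⟨b, hb⟩ := hA.basis (ι := Fin 3 × Fin 3) (by simp [Module.finrank_matrix])
  let B : Module.Basis (Fin 3 × Fin 3) (fixedField Γ) D := Module.Basis.mk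
    (v := fun i => ⟨b i, hb i⟩)
    (LinearIndependent.of_comp D.val.toLinearMap (b.linearIndependent.restrict_scalars' _))
    fun x _ => by
      have e : x = ∑ i, (⟨_, coord hA b hb x.2 i⟩ : fixedField Γ) • (⟨b i, hb i⟩ : D) :=
        Subtype.ext ((b.sum_repr x.1).symm.trans (map_sum D.val (fun i =>
          (⟨_, coord hA b hb x.2 i⟩ : fixedField Γ) • (⟨b i, hb i⟩ : D)) _).symm)
      rw [e]
      exact Submodule.sum_mem _ fun i _ => Submodule.smul_mem _ _ (Submodule.subset_span ⟨i, rfl⟩)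
  have := Module.Finite.of_basis B
  let : DivisionRing D := DivisionRing.ofIsUnitOrEqZero fun x => by
    refine or_iff_not_imp_right.2 fun x0 => ?_
    have d : IsUnit x.1.det := isUnit_iff_ne_zero.2 fun e =>
      hc ⟨x, x.2, Or.inl ⟨fun e => x0 (Subtype.ext e), e⟩⟩
    have m : x.1⁻¹ ∈ Fx Γ A := fun σ s => (inv_eq_left_inv (by
      have := hm σ s x.1⁻¹ x.1
      rw [x.2 σ s, nonsing_inv_mul _ d, h1 σ s] at this
      exact this.symm)).symm
    exact ⟨⟨x, ⟨_, m⟩, Subtype.ext (mul_nonsing_inv _ d), Subtype.ext (nonsing_inv_mul _ d)⟩, rfl⟩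
  have : Algebra.IsCentral (fixedField Γ) D := ⟨fun z hz => by
    have e : z.1 ∈ Set.center (Matrix (Fin 3) (Fin 3) K) := by
      refine Semigroup.mem_center_iff.2 fun M => ?_
      rw [← b.sum_repr M, Finset.sum_mul, Finset.mul_sum]
      exact Finset.sum_congr rfl fun i _ => by
        rw [smul_mul_assoc, mul_smul_comm]
        exact congrArg _ (congrArg Subtype.val (Subalgebra.mem_center_iff.1 hz ⟨b i, hb i⟩))
    rw [center_eq_range] at e
    obtain ⟨c, e⟩ := e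
    rw [scalar_apply, ← smul_one_eq_diagonal] at e
    refine Algebra.mem_bot.2 ⟨⟨c, mem_ff.2 fun σ s => ?_⟩, Subtype.ext ?_⟩
    · have := z.2 σ s
      rw [← e, hA.smul σ s, h1 σ s] at this
      simpa using congrFun (congrFun this 0) 0
    · exact (congrArg Subtype.val (Algebra.algebraMap_eq_smul_one (A := D) _)).trans e⟩
  obtain ⟨t, ht⟩ := P011.W.eichler (F := fixedField Γ) (D := D) (e := 1) Nat.prime_three
    (by rw [Module.finrank_eq_card_basis B]; rfl) ⟨y, mem_ff.2 hy⟩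
    (fun e => y0 (congrArg Subtype.val e)) (by norm_num)
  exact hc ⟨t, t.2, Or.inr (ht K D.val)⟩

end Vale.Agent.P011LR
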