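import Vale.Agent.P011LG.Dual
import Vale.Agent.P011LD.H90

/-!
Semilinear actions on the hermitian matrices of degree three over octonions which preserve the
cubic norm.
-/

namespace Vale.Agent.P011LR

open Vale.Agent.P011.D4 Vale.Agent.P011.D4.Oct Vale.Agent.P011.E6 Vale.Agent.P011.E6.Alb
  Vale.Agent.P011LD Vale.Agent.P011LG

variable {k K : Type} [Field k] [Field K] [Algebra k K] {a b c a' b' c' : Kˣ}
  {Γ : Subgroup (K ≃ₐ[k] K)} {p : (K ≃ₐ[k] K) → Alb a b c → Alb a b c} {σ : K ≃ₐ[k] K}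

/-- A continuous semilinear action which preserves the cubic norm. -/
structure NA (Γ : Subgroup (K ≃ₐ[k] K)) (p : (K ≃ₐ[k] K) → Alb a b c → Alb a b c) : Prop
    extends Sl Γ p where
  cub : ∀ σ ∈ Γ, ∀ x, cub (p σ x) = σ (cub x)

/-- The cubic norm has a nontrivial zero on the fixed points. -/
def Zr (Γ : Subgroup (K ≃ₐ[k] K)) (p : (K ≃ₐ[k] K) → Alb a b c → Alb a b c) : Prop :=
  ∃ x ∈ Fx Γ p, x ≠ 0 ∧ cub x = 0

theorem NA.mono (h : NA Γ p) {Γ' : Subgroup (K ≃ₐ[k] K)} (l : Γ' ≤ Γ) : NA Γ' p :=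
  ⟨h.toSl.mono l, fun σ s => h.cub σ (l s)⟩

theorem NA.surj (h : NA Γ p) (s : σ ∈ Γ) (y : Alb a b c) : ∃ x, p σ x = y :=
  ⟨p σ⁻¹ y, by rw [← h.mul σ s _ (Γ.inv_mem s), mul_inv_cancel, h.one]⟩

theorem NA.ne (h : NA Γ p) (s : σ ∈ Γ) {x : Alb a b c} (hx : x ≠ 0) : p σ x ≠ 0 := fun e =>
  hx (by rw [← h.one x, ← inv_mul_cancel σ, h.mul _ (Γ.inv_mem s) σ s, e, h.zero (Γ.inv_mem s)])

/-- The conjugated action. -/
def cj (g : Alb a' b' c' ≃ₗ[K] Alb a b c) (p : (K ≃ₐ[k] K) → Alb a b c → Alb a b c)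
    (σ : K ≃ₐ[k] K) (x : Alb a' b' c') : Alb a' b' c' := g.symm (p σ (g x))

theorem cj_apply (g : Alb a' b' c' ≃ₗ[K] Alb a b c) (x : Alb a' b' c') :
    g (cj g p σ x) = p σ (g x) := g.apply_symm_apply _

theorem cj_eq (g : Alb a' b' c' ≃ₗ[K] Alb a b c) {x y : Alb a' b' c'} (h : p σ (g x) = g y) :
    cj g p σ x = y := g.injective ((cj_apply g x).trans h)

theorem NA.cj (h : NA Γ p) (g : Alb a' b' c' ≃ₗ[K] Alb a b c) {μ : K} (h0 : μ ≠ 0)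
    (h1 : ∀ σ ∈ Γ, σ μ = μ) (hg : ∀ x, Alb.cub (g x) = μ * Alb.cub x) : NA Γ (cj g p) := by
  refine ⟨⟨fun σ s x y => ?_, fun σ s t x => ?_, fun σ s τ t x => ?_, fun x => ?_⟩,
    fun σ s x => mul_left_cancel₀ h0 ?_⟩
  · simp only [P011LR.cj, map_add, h.add σ s]
  · simp only [P011LR.cj, map_smul, h.smul σ s]
  · simp only [P011LR.cj, LinearEquiv.apply_symm_apply, h.mul σ s τ t]
  · exact (h.cont (g x)).imp fun S hS σ s e => cj_eq g (hS σ s e)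
  · rw [← hg, cj_apply, h.cub σ s, hg, map_mul, h1 σ s]

theorem Zr.of_cj (g : Alb a' b' c' ≃ₗ[K] Alb a b c) {μ : K}
    (hg : ∀ x, cub (g x) = μ * cub x) (h : Zr Γ (cj g p)) : Zr Γ p := by
  obtain ⟨x, h1, h2, h3⟩ := h
  exact ⟨g x, fun σ s => (cj_apply g x).symm.trans (congrArg g (h1 σ s)), by simpa using h2, by rw [hg, h3, mul_zero]⟩

variable [CharZero K]

theorem NA.tf_adj (h : NA Γ p) (s : σ ∈ Γ) (x y : Alb a b c) :
    tf (adj (p σ x)) (p σ y) = σ (tf (adj x) y) := by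
  apply mul_left_cancel₀ (two_ne_zero (α := K))
  have e : p σ ((-1 : K) • y) = (-1 : K) • p σ y := by rw [h.smul σ s, map_neg, map_one]
  have := congrArg σ (two_tf_adj x y)
  rw [two_tf_adj, ← e, ← h.add σ s, ← h.add σ s, h.cub σ s, h.cub σ s, h.cub σ s]
  simpa only [map_mul, map_sub, map_ofNat] using this.symm

theorem NA.tf_cross (h : NA Γ p) (s : σ ∈ Γ) (x y z : Alb a b c) :
    tf (cross (p σ x) (p σ y)) (p σ z) = σ (tf (cross x y) z) := by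
  have h1 := h.tf_adj s (x + y) z
  rw [h.add σ s, adj_add, adj_add, tf_add_left, tf_add_left, tf_add_left, tf_add_left,
    h.tf_adj s, h.tf_adj s, map_add, map_add] at h1
  linear_combination h1

theorem NA.adj_zero (h : NA Γ p) (s : σ ∈ Γ) {x : Alb a b c} (hx : adj x = 0) :
    adj (p σ x) = 0 := eq_zero_of_tf fun y => by
  obtain ⟨z, rfl⟩ := h.surj s y
  rw [h.tf_adj s, hx, tf_zero_left, map_zero]

section one

variable (h : NA Γ p) (s : σ ∈ Γ) (h1 : p σ (dia 1 1 1) = dia 1 1 1)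
include h s h1

theorem NA.tf (x y : Alb a b c) : tf (p σ x) (p σ y) = σ (tf x y) := by
  rw [tf_eq_one, tf_eq_one x y, ← h1, h.tf_adj s, h.tf_adj s, h.tf_cross s, h1, map_sub, map_mul]

theorem NA.adj (x : Alb a b c) : adj (p σ x) = p σ (adj x) := eq_of_tf fun z => by
  obtain ⟨w, rfl⟩ := h.surj s z
  rw [h.tf_adj s, h.tf s h1]

theorem NA.cross (x y : Alb a b c) : cross (p σ x) (p σ y) = p σ (cross x y) :=
  eq_of_tf fun z => by
    obtain ⟨w, rfl⟩ := h.surj s z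
    rw [h.tf_cross s, h.tf s h1]

end one

/-- The stabiliser of an element of the field. -/
def St (Γ : Subgroup (K ≃ₐ[k] K)) (δ : K) : Subgroup (K ≃ₐ[k] K) :=
  Γ ⊓ MulAction.stabilizer _ δ

omit [CharZero K] in
theorem mem_St {δ : K} : σ ∈ St Γ δ ↔ σ ∈ Γ ∧ σ δ = δ := Iff.rfl

omit [CharZero K] in
theorem op_St (h : Op ⊤ (· ∈ Γ)) (δ : K) : Op ⊤ (· ∈ St Γ δ) := h.and (Op.fix ⊤ δ)

/-- A zero over a quadratic extension descends. -/
theorem NA.quad (h : NA Γ p) {δ : K} (h0 : δ ≠ 0) (hδ : ∀ σ ∈ Γ, σ (δ * δ) = δ * δ)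
    (hz : Zr (St Γ δ) p) : Zr Γ p := by
  obtain ⟨x, hx, x0, n0⟩ := hz
  have alt : ∀ σ ∈ Γ, σ δ = δ ∨ σ δ = -δ := fun σ s =>
    mul_self_eq_mul_self_iff.1 ((map_mul σ δ δ).symm.trans (hδ σ s))
  by_cases e : ∀ σ ∈ Γ, σ δ = δ
  · exact ⟨x, fun σ s => hx σ ⟨s, e σ s⟩, x0, n0⟩
  push Not at e
  obtain ⟨r, hr, e⟩ := e
  have er := (alt r hr).resolve_left e
  have k1 : ∀ σ ∈ Γ, σ δ = -δ → p σ x = p r x := fun σ s e => by
    rw [← mul_inv_cancel_left r σ, h.mul r hr _ (Γ.mul_mem (Γ.inv_mem hr) s),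
      hx _ ⟨Γ.mul_mem (Γ.inv_mem hr) s, r.injective ((r.apply_symm_apply _).trans (e.trans er.symm))⟩]
  obtain ⟨y, hy⟩ : ∃ y, p r x = y := ⟨_, rfl⟩
  have k2 : ∀ σ ∈ Γ, σ δ = δ ∧ p σ x = x ∧ p σ y = y ∨ σ δ = -δ ∧ p σ x = y ∧ p σ y = x := by
    intro σ s
    rw [← hy, ← h.mul σ s r hr]
    rcases alt σ s with e | e
    · exact Or.inl ⟨e, hx σ ⟨s, e⟩, k1 _ (Γ.mul_mem s hr) (by
        rw [AlgEquiv.mul_apply, er, map_neg, e])⟩
    · exact Or.inr ⟨e, k1 σ s e, hx _ ⟨Γ.mul_mem s hr, by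
        show σ (r δ) = δ
        rw [er, map_neg, e, neg_neg]⟩⟩
  have n1 : Alb.cub y = 0 := by rw [← hy, h.cub r hr, n0, map_zero]
  have nn : ∀ α β : K, Alb.cub (α • x + β • y) =
      α * β * (α * Alb.tf (Alb.adj x) y + β * Alb.tf (Alb.adj y) x) := fun α β => by
    rw [cub_add, cub_smul, cub_smul, adj_smul, adj_smul, tf_smul_left, tf_smul_left, tf_smul_right,
      tf_smul_right, n0, n1, tf_comm x]
    ring
  obtain ⟨A, hA⟩ : ∃ A, Alb.tf (Alb.adj x) y = A := ⟨_, rfl⟩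
  obtain ⟨B, hB⟩ : ∃ B, Alb.tf (Alb.adj y) x = B := ⟨_, rfl⟩
  have k3 : ∀ α β : K, (∀ σ ∈ Γ, σ δ = δ → σ α = α ∧ σ β = β) →
      (∀ σ ∈ Γ, σ δ = -δ → σ α = β ∧ σ β = α) → α • x + β • y ∈ Fx Γ p := fun α β e1 e2 σ s => by
    rw [h.add σ s, h.smul σ s, h.smul σ s]
    rcases k2 σ s with ⟨e, e3, e4⟩ | ⟨e, e3, e4⟩
    · rw [e3, e4, (e1 σ s e).1, (e1 σ s e).2]
    · rw [e3, e4, (e2 σ s e).1, (e2 σ s e).2, add_comm]
  have k4 : ∀ σ ∈ Γ, (σ δ = δ → σ A = A ∧ σ B = B) ∧ (σ δ = -δ → σ A = B ∧ σ B = A) := by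
    intro σ s
    have e1 := h.tf_adj s x y
    have e2 := h.tf_adj s y x
    have e3 : δ ≠ -δ := fun e => h0 (self_eq_neg.1 e)
    rcases k2 σ s with ⟨e, e5, e4⟩ | ⟨e, e5, e4⟩ <;> simp only [e5, e4, hA, hB] at e1 e2
    · exact ⟨fun _ => ⟨e1.symm, e2.symm⟩, fun e' => absurd (e.symm.trans e') e3⟩
    · exact ⟨fun e' => absurd (e'.symm.trans e) e3, fun _ => ⟨e1.symm, e2.symm⟩⟩
  rw [hA, hB] at nn
  by_cases a0 : A = 0
  · have b0 : B = 0 := by rw [← ((k4 r hr).2 er).1, a0, map_zero]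
    by_cases e1 : (1 : K) • x + (1 : K) • y = 0
    · refine ⟨_, k3 δ (-δ) (fun σ _ e => by simp [e]) (fun σ _ e => by simp [e]), fun e2 => ?_,
        by rw [nn, a0, b0]; ring⟩
      have : (2 * δ) • x = δ • ((1 : K) • x + (1 : K) • y) + (δ • x + -δ • y) := by module
      rw [e1, e2, smul_zero, add_zero, smul_eq_zero] at this
      exact this.elim (mul_ne_zero two_ne_zero h0) x0
    · exact ⟨_, k3 1 1 (by simp) (by simp), e1, by rw [nn, a0, b0]; ring⟩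
  · refine ⟨_, k3 (δ * B) (-δ * A) (fun σ s e => by simp [e, (k4 σ s).1 e])
      (fun σ s e => by simp [e, (k4 σ s).2 e]), fun e2 => ?_, by rw [nn]; ring⟩
    have := congrArg (Alb.tf (Alb.adj x)) e2
    rw [tf_add_right, tf_smul_right, tf_smul_right, tf_adj_self, n0, hA, tf_zero_right] at this
    exact mul_ne_zero h0 (mul_ne_zero a0 a0) (by linear_combination -this)

end Vale.Agent.P011LR
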