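import Vale.Agent.P011LR.Fr
import Vale.Agent.P011LR.Ar

/-!
Isotropic vectors in the slots.
-/

namespace Vale.Agent.P011LR

open Vale.Agent.P011.D4 Vale.Agent.P011.D4.Oct Vale.Agent.P011.E6 Vale.Agent.P011.E6.Alb
  Vale.Agent.P011LD Vale.Agent.P011LG

variable {k K : Type} [Field k] [Field K] [Algebra k K] {a b c : Kˣ}
  {Γ : Subgroup (K ≃ₐ[k] K)} {p : (K ≃ₐ[k] K) → Alb a b c → Alb a b c} {σ : K ≃ₐ[k] K}
  {π : (K ≃ₐ[k] K) → Fin 3 → Fin 3}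

/-- Fixed orthogonal vectors. -/
theorem perp [Algebra.IsAlgebraic k K] {Q : (K ≃ₐ[k] K) → Oct a b c → Oct a b c} (h : Sl Γ Q)
    (hb : ∀ σ ∈ Γ, ∀ u v, bil (Q σ u) (Q σ v) = σ (bil u v)) {v1 v2 v3 v4 : Oct a b c}
    (h1 : v1 ∈ Fx Γ Q) (h2 : v2 ∈ Fx Γ Q) (h3 : v3 ∈ Fx Γ Q) (h4 : v4 ∈ Fx Γ Q) :
    ∃ x ∈ Fx Γ Q, x ≠ 0 ∧ bil x v1 = 0 ∧ bil x v2 = 0 ∧ bil x v3 = 0 ∧ bil x v4 = 0 := by
  let W : Submodule K (Oct a b c) :=
    { carrier := {x | bil x v1 = 0 ∧ bil x v2 = 0 ∧ bil x v3 = 0 ∧ bil x v4 = 0}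
      add_mem' := fun ⟨e1, e2, e3, e4⟩ ⟨f1, f2, f3, f4⟩ => by simp [bil_add_left, *]
      zero_mem' := by simp
      smul_mem' := fun t x ⟨e1, e2, e3, e4⟩ => by simp [bil_smul_left, *] }
  have k1 : ∀ σ ∈ Γ, ∀ x, ∀ v ∈ Fx Γ Q, bil x v = 0 → bil (Q σ x) v = 0 := fun σ s x v hv e => by
    rw [← hv σ s, hb σ s, e, map_zero]
  obtain ⟨x, x0, hx⟩ := exists_perp ![v1, v2, v3, v4, 0, 0, 0]
  have k2 : ∀ v, dot x v = 0 → bil x v = 0 := fun v e => by rw [bil_eq_dot, e, mul_zero]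
  obtain ⟨y, h5, h6, h7⟩ := h.exists_ne W (fun σ s x ⟨e1, e2, e3, e4⟩ =>
    ⟨k1 σ s x _ h1 e1, k1 σ s x _ h2 e2, k1 σ s x _ h3 e3, k1 σ s x _ h4 e4⟩)
    ((Submodule.ne_bot_iff W).2 ⟨x, ⟨k2 _ (hx 0), k2 _ (hx 1), k2 _ (hx 2), k2 _ (hx 3)⟩, x0⟩)
  exact ⟨y, h7, h6, h5⟩

/-- The fixed points in the first slot contain an isotropic vector. -/
theorem Fr.iso [NumberField k] [IsAlgClosure k K] (h : Fr Γ p π) (hΓ : Op ⊤ (· ∈ Γ))
    (e : ∀ σ ∈ Γ, ∀ i, π σ i = i) {i : K} (hi : i * i = -1) (hi' : ∀ σ ∈ Γ, σ i = i) :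
    ∃ u ∈ Fx Γ fun σ => q p π σ 0, u ≠ 0 ∧ norm u = 0 := by
  have : CharZero K := charZero_of_injective_algebraMap (algebraMap k K).injective
  by_contra hc
  have sl := fun i => h.sl i fun σ s => e σ s i
  have a0 : ∀ u ∈ Fx Γ fun σ => q p π σ 0, u ≠ 0 → norm u ≠ 0 := fun u h1 h2 h3 =>
    hc ⟨u, h1, h2, h3⟩
  have pr : ∀ i, ∀ u ∈ Fx Γ fun σ => q p π σ i, ∀ v ∈ Fx Γ fun σ => q p π σ (i + 1),
      star (u * v) ∈ Fx Γ fun σ => q p π σ (i + 2) := fun i u hu v hv σ s => by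
    show q p π σ _ _ = _
    rw [h.q_even s (by simp only [e σ s]) (by simp only [e σ s])]
    exact congrArg star (congrArg₂ (· * ·) (hu σ s) (hv σ s))
  have a2 : ∀ u ∈ Fx Γ fun σ => q p π σ 2, u ≠ 0 → norm u ≠ 0 := fun u h1 h2 h3 => by
    have : Submodule.span K (Fx Γ fun σ => q p π σ 1) ≤ (LinearMap.mulRight K u).ker :=
      Submodule.span_le.2 fun y hy => by
        by_contra e
        exact a0 _ (pr 1 y hy u h1) (star_ne_zero.2 e) (by rw [Oct.norm_star, Oct.norm_mul, h3,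
          mul_zero])
    exact h2 ((one_mul u).symm.trans (this ((sl 1).span ▸ Submodule.mem_top (x := 1))))
  have nf : ∀ i, ∀ u ∈ Fx Γ fun σ => q p π σ i, ∀ σ ∈ Γ, σ (norm u) = norm u :=
    fun i u hu σ s => (h.q_norm s i u).symm.trans (congrArg Oct.norm (hu σ s))
  have pp := fun i => @perp _ _ _ _ _ _ _ _ _ _ _ (sl i) fun σ s => h.q_bil s i
  have z := fun i => (sl i).zero_mem
  obtain ⟨u, u1, u0, -⟩ := pp 2 (z 2) (z 2) (z 2) (z 2)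
  obtain ⟨w, w1, w0, w2, -⟩ := pp 2 u1 (z 2) (z 2) (z 2)
  obtain ⟨I, hI⟩ : ∃ I : Oct a b c → Oct a b c, ∀ y, I y = star w * (u * y) := ⟨_, fun _ => rfl⟩
  have I1 : ∀ y ∈ Fx Γ fun σ => q p π σ 0, I y ∈ Fx Γ fun σ => q p π σ 0 := fun y hy => by
    simpa [hI] using pr 1 _ (pr 2 u u1 y hy) w w1
  have I2 : ∀ y y', bil (I y) (I y') = norm w * norm u * bil y y' := fun y y' => by
    rw [hI, hI, bil_mul_mul_left, bil_mul_mul_left, Oct.norm_star, mul_assoc]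
  have I3 : ∀ y y', bil (I y) y' = -bil y (I y') := fun y y' => by
    have := bil_mul_mul w y u y'
    rw [hI, hI, bil_mul_left, bil_mul_right y, star_star, bil_comm (u * y)]
    rw [w2, zero_mul, bil_comm (u * y)] at this
    linear_combination this
  have I4 : ∀ y, bil y (I y) = 0 := fun y => by
    have := I3 y y
    rw [bil_comm] at this
    exact self_eq_neg.1 this
  have I5 : ∀ y, norm (I y) = norm w * norm u * norm y := fun y => by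
    rw [hI, Oct.norm_mul, Oct.norm_mul, Oct.norm_star, mul_assoc]
  obtain ⟨y1, f1, n1, -⟩ := pp 0 (z 0) (z 0) (z 0) (z 0)
  obtain ⟨y2, f2, n2, b1, b2, -⟩ := pp 0 f1 (I1 _ f1) (z 0) (z 0)
  obtain ⟨y3, f3, n3, c1, c2, c3, c4⟩ := pp 0 f1 (I1 _ f1) f2 (I1 _ f2)
  have m1 := a0 _ f1 n1
  have m3 := a0 _ f3 n3
  obtain ⟨x, y, r, t, fx, ex⟩ := qn hΓ hi hi' (a := -(norm w * norm u)) (b := -norm y2 / norm y1)
    (c := -norm y3 / norm y1) (neg_ne_zero.2 (mul_ne_zero (a2 _ w1 w0) (a2 _ u1 u0)))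
    (div_ne_zero (neg_ne_zero.2 (a0 _ f2 n2)) m1) (div_ne_zero (neg_ne_zero.2 m3) m1)
    (fun σ s => by simp [nf 2 _ w1 σ s, nf 2 _ u1 σ s])
    (fun σ s => by simp [nf 0 _ f2 σ s, nf 0 _ f1 σ s])
    (fun σ s => by simp [nf 0 _ f3 σ s, nf 0 _ f1 σ s])
  refine a0 (y3 + (x • y1 + y • I y1 + (r • y2 + t • I y2))) ((sl 0).add_mem f3 ((sl 0).add_mem
    ((sl 0).add_mem ((sl 0).smul_mem (fun σ s => (fx σ s).1) f1)
      ((sl 0).smul_mem (fun σ s => (fx σ s).2.1) (I1 _ f1)))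
    ((sl 0).add_mem ((sl 0).smul_mem (fun σ s => (fx σ s).2.2.1) f2)
      ((sl 0).smul_mem (fun σ s => (fx σ s).2.2.2) (I1 _ f2))))) (fun e0 => m3 ?_) ?_
  · simpa [bil_add_right, bil_smul_right, c1, c2, c3, c4, bil_self] using congrArg (bil y3) e0
  · have b3 : bil y1 (I y2) = 0 := by rw [← neg_eq_zero, ← I3, bil_comm, b2]
    simp only [norm_add, Oct.norm_smul, bil_add_left, bil_add_right, bil_smul_left, bil_smul_right,
      c1, c2, c3, c4, I2, I4, I5, b3, bil_comm y1 y2, bil_comm (I y1) y2, b1, b2]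
    field_simp at ex
    linear_combination -ex

end Vale.Agent.P011LR
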