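import Vale.Agent.P011LR.Det
import Vale.Agent.P011LR.Iso

/-!
The cubic norm is isotropic if the frame is permuted cyclically.
-/

namespace Vale.Agent.P011LR

open Vale.Agent.P011.D4 Vale.Agent.P011.D4.Oct Vale.Agent.P011.E6 Vale.Agent.P011.E6.Alb
  Vale.Agent.P011LD Vale.Agent.P011LG Matrix

variable {k K : Type} [Field k] [Field K] [Algebra k K] {a b c : Kˣ}
  {Γ : Subgroup (K ≃ₐ[k] K)} {p : (K ≃ₐ[k] K) → Alb a b c → Alb a b c} {σ : K ≃ₐ[k] K}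
  {s : (K ≃ₐ[k] K) → Fin 3}

theorem op_and {P : (K ≃ₐ[k] K) → Prop} (h : Op ⊤ (· ∈ Γ)) (h' : Op Γ P) :
    Op ⊤ fun σ => σ ∈ Γ ∧ P σ := by
  classical
  obtain ⟨S, hS⟩ := h
  obtain ⟨T, hT⟩ := h'
  exact ⟨S ∪ T, fun σ m e => have := hS σ m fun x l => e x (Finset.mem_union_left _ l)
    ⟨this, hT σ this fun x l => e x (Finset.mem_union_right _ l)⟩⟩

theorem pw {ζ : K} (h : ζ ^ 3 = 1) (x y : Fin 3) : ζ ^ (x + y).val = ζ ^ x.val * ζ ^ y.val := by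
  rw [Fin.val_add, ← pow_eq_pow_mod _ h, pow_add]

/-- The action on the matrices which defines the cyclic algebra. -/
def cy (s : (K ≃ₐ[k] K) → Fin 3) (τ : K) (σ : K ≃ₐ[k] K) (M : Matrix (Fin 3) (Fin 3) K) :
    Matrix (Fin 3) (Fin 3) K :=
  of fun i j => (τ / σ τ) ^ (j - i).val * σ (M (i - s σ) (j - s σ))

theorem cy_eich [NumberField k] [IsAlgClosure k K] (hΓ : Op ⊤ (· ∈ Γ))
    (hs : ∀ σ ∈ Γ, ∀ ρ ∈ Γ, s (σ * ρ) = s ρ + s σ) (hc : Op Γ fun σ => s σ = 0) {τ : K}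
    (h0 : τ ≠ 0) (h3 : ∀ σ ∈ Γ, σ (τ ^ 3) = τ ^ 3) {y : K} (hy : ∀ σ ∈ Γ, σ y = y) :
    ∃ M ∈ Fx Γ (cy s τ), M ≠ 0 ∧ M.det = 0 ∨ M.det = y := by
  refine eich hΓ ⟨fun σ _ M N => ?_, fun σ _ t M => ?_, fun σ m ρ l M => ?_, fun M => ?_⟩
    (fun σ m M N => ?_) (fun σ _ => ?_) hy
  · ext i j
    simp [cy, mul_add]
  · ext i j
    simp [cy, mul_left_comm]
  · ext i j
    have : σ τ ≠ 0 := (map_ne_zero σ).2 h0
    simp only [cy, of_apply, hs σ m ρ l, sub_sub_sub_cancel_right, add_comm (s ρ), map_mul, map_pow,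
      map_div₀, AlgEquiv.mul_apply, ← mul_assoc, ← mul_pow, div_mul_div_cancel₀ this, ← sub_sub]
  · refine ((hc.and (Op.fix Γ τ)).and (Op.mat Γ M)).imp fun σ _ e => ?_
    ext i j
    have := congrFun (congrFun e.2 i) j
    simpa [cy, e.1.1, e.1.2, h0] using this
  · ext i j
    have e : (τ / σ τ) ^ 3 = 1 := by rw [div_pow, ← map_pow, h3 σ m, div_self (pow_ne_zero 3 h0)]
    simp only [cy, of_apply, mul_apply, map_sum, map_mul, Finset.mul_sum]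
    refine (Fintype.sum_equiv (Equiv.subRight (s σ)) _ _ fun l => ?_).symm
    rw [← sub_add_sub_cancel j l i, pw e, Equiv.subRight_apply]
    ring
  · ext i j
    by_cases e : i = j <;> simp [cy, one_apply, e]

theorem ad_facts [CharZero K] {v w : Fin 3 → Oct a b c} (hv : ∀ i, norm (v i) = 0)
    (h1 : ∀ i, w i * v (i + 1) = 0) (i : Fin 3) : bil (v i) (ad v i) = cub (mk 0 v) ∧
      norm (ad v i) = 0 ∧ bil (w i) (ad v i) = 0 := by
  refine ⟨?_, by rw [ad, Oct.norm_star, Oct.norm_mul, hv, zero_mul],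
    by rw [ad, tri1', h1, zero_mul, bil_zero_left]⟩
  have : cub (mk 0 v) = bil (v 0 * v 1 * v 2) 1 := by simp [cub, mk]
  rw [this]
  fin_cases i
  exacts [tri1' _ _ _, tri2' _ _ _, tri3' _ _ _]

/-- The case of a cyclically permuted frame. -/
theorem red0 [NumberField k] [IsAlgClosure k K] (h : Fr Γ p fun σ i => i + s σ)
    (hΓ : Op ⊤ (· ∈ Γ)) {ι : K} (hi : ι * ι = -1) (hi' : ∀ σ ∈ Γ, σ ι = ι) : Zr Γ p := by
  have : CharZero K := charZero_of_injective_algebraMap (algebraMap k K).injective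
  have := IsAlgClosure.isAlgClosed k (K := K)
  have hs : ∀ σ ∈ Γ, ∀ ρ ∈ Γ, s (σ * ρ) = s ρ + s σ := fun σ m ρ l => by simpa using h.mulπ m l 0
  have s1 : s 1 = 0 := by simpa using h.oneπ 0
  have si : ∀ σ ∈ Γ, ∀ ρ ∈ Γ, s σ = s ρ → s (ρ⁻¹ * σ) = 0 := fun σ m ρ l e => by
    rw [hs _ (Γ.inv_mem l) σ m, e, ← hs _ (Γ.inv_mem l) ρ l, inv_mul_cancel, s1]
  have hc : Op Γ fun σ => s σ = 0 := Op.imp (h.cont (E 0)) fun σ m e => by
    simpa using E_inj ((h.perm σ m 0).symm.trans e)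
  by_cases e0 : ∀ σ ∈ Γ, s σ = 0
  · exact ⟨E 0, fun σ m => by rw [h.perm σ m, e0 σ m, add_zero], E_ne 0, cub_of_adj (adj_E 0)⟩
  push Not at e0
  obtain ⟨r0, m0, e0⟩ := e0
  have hr : ∀ i, ∃ r ∈ Γ, s r = i := fun i => by
    rcases (by decide : ∀ x i : Fin 3, x ≠ 0 → i = 0 ∨ i = x ∨ i = x + x) _ i e0 with e | e | e
    exacts [⟨1, Γ.one_mem, s1.trans e.symm⟩, ⟨r0, m0, e.symm⟩,
      ⟨_, Γ.mul_mem m0 m0, (hs _ m0 _ m0).trans e.symm⟩]
  choose r r1 r2 using hr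
  let H : Subgroup (K ≃ₐ[k] K) :=
    { carrier := {σ | σ ∈ Γ ∧ s σ = 0}
      mul_mem' := fun {σ ρ} m l => ⟨Γ.mul_mem m.1 l.1, by rw [hs _ m.1 _ l.1, m.2, l.2, add_zero]⟩
      one_mem' := ⟨Γ.one_mem, s1⟩
      inv_mem' := fun {σ} m => ⟨Γ.inv_mem m.1, by
        simpa using si 1 Γ.one_mem σ m.1 (s1.trans m.2.symm)⟩ }
  have hH : Fr H p fun σ i => i + s σ := h.mono fun _ m => m.1
  have eH : ∀ σ ∈ H, ∀ i : Fin 3, i + s σ = i := fun σ m i => by rw [m.2, add_zero]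
  obtain ⟨Q, hQ⟩ : ∃ Q, Q = q p fun σ i => i + s σ := ⟨_, rfl⟩
  have tr : ∀ u ∈ Fx H fun σ => Q σ 0, ∃ v : Fin 3 → Oct a b c, v 0 = u ∧
      ∀ σ ∈ Γ, ∀ i, Q σ i (v i) = v (i + s σ) := fun u hu => by
    refine ⟨fun i => Q (r i) 0 u, hu _ ⟨r1 0, r2 0⟩, fun σ m i => ?_⟩
    have e1 := h.q_mul m (r1 i) 0 u
    have l := Γ.mul_mem (Γ.inv_mem (r1 (i + s σ))) (Γ.mul_mem m (r1 i))
    have l' := si _ (Γ.mul_mem m (r1 i)) _ (r1 (i + s σ)) (by rw [hs _ m _ (r1 i), r2, r2])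
    have e2 := h.q_mul (r1 (i + s σ)) l 0 u
    simp only [← hQ, mul_inv_cancel_left, l', r2, zero_add] at e1 e2
    rw [← e1, e2]
    exact congrArg _ (hu _ ⟨l, l'⟩)
  have al : ∀ P : Fin 3 → Prop, (∀ σ ∈ Γ, P (0 + s σ)) → ∀ i, P i := fun P hP i => by
    simpa [r2] using hP _ (r1 i)
  obtain ⟨u, u1, u0, un⟩ := hH.iso (op_and hΓ hc) eH hi fun σ m => hi' σ m.1
  obtain ⟨v, v0, hv⟩ := tr u (hQ ▸ u1)
  have vn : ∀ i, norm (v i) = 0 := al _ fun σ m => by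
    rw [← hv σ m, hQ, h.q_norm m, v0, un, map_zero]
  have fx : ∀ w : Fin 3 → Oct a b c, (∀ σ ∈ Γ, ∀ i, Q σ i (w i) = w (i + s σ)) →
      mk 0 w ∈ Fx Γ p := fun w hw σ m => h.mem_Fx m (by simp) (by simpa [hQ] using hw σ m)
  have fc : ∀ x ∈ Fx Γ p, ∀ σ ∈ Γ, σ (cub x) = cub x := fun x hx σ m => by
    rw [← h.cub σ m, hx σ m]
  by_cases t0 : cub (mk 0 v) = 0
  · exact ⟨_, fx v hv, fun e => u0 (by simpa [v0, X_zero] using congrFun (congrArg X e) 0), t0⟩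
  have hv' : ∀ σ ∈ Γ, ∀ i, Q σ i (ad v i) = ad v (i + s σ) := fun σ m i => by
    have := h.X_eq m (adj (mk 0 v)) i
    rw [← h.adj m (h.fix1 m), fx v hv σ m] at this
    simpa [X_adj, ← hQ, ad] using this.symm
  have k1 : ∀ σ ∈ Γ, ∀ u, u * v 1 = 0 → Q σ 0 u * v (0 + s σ + 1) = 0 := fun σ m u e => by
    have := h.q_even (i := 0) m (add_right_comm _ _ _) (add_right_comm _ _ _) u (v 1)
    rw [e, star_zero, h.q_zero m, ← hQ, zero_add, hv σ m, eq_comm, star_eq_zero] at this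
    rwa [zero_add, add_comm]
  have k2 : ∀ σ ∈ Γ, ∀ u, bil u (v 0) = 0 → bil (Q σ 0 u) (v (0 + s σ)) = 0 := fun σ m u e => by
    rw [← hv σ m, hQ, h.q_bil m, e, map_zero]
  have vv : ∀ i, v i ≠ 0 := fun i e => t0 (by
    rw [← (ad_facts (w := 0) vn (by simp) i).1, e, bil_zero_left])
  obtain ⟨w0, w1, w2, w3⟩ := (hQ ▸ hH.sl 0 fun σ m => eH σ m 0).exists_ne
    { carrier := {u | u * v 1 = 0 ∧ bil u (v 0) = 0}
      add_mem' := fun ⟨e1, e2⟩ ⟨f1, f2⟩ => by simp [add_mul, bil_add_left, e1, e2, f1, f2]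
      zero_mem' := by simp
      smul_mem' := fun t x ⟨e1, e2⟩ => by simp [bil_smul_left, smul_mul_oct, e1, e2] }
    (fun σ m u ⟨e1, e2⟩ => ⟨by simpa [m.2] using k1 σ m.1 u e1, by simpa [m.2] using k2 σ m.1 u e2⟩)
    ((Submodule.ne_bot_iff _).2 ((exists_w (v 0) (vn 1) (vv 1)).elim fun x e => ⟨x, e.2, e.1⟩))
  obtain ⟨w, rfl, hw⟩ := tr w0 w3
  have c1 : ∀ i, w i * v (i + 1) = 0 := al _ fun σ m => hw σ m 0 ▸ k1 σ m _ w1.1
  have c2 : ∀ i, bil (w i) (v i) = 0 := al _ fun σ m => hw σ m 0 ▸ k2 σ m _ w1.2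
  obtain ⟨τ, hτ⟩ := IsAlgClosed.exists_pow_nat_eq (cub (mk 0 v)) three_pos
  have τ0 : τ ≠ 0 := fun e => t0 (by simp [← hτ, e])
  have key : ∀ w : Fin 3 → Oct a b c, (∀ σ ∈ Γ, ∀ i, Q σ i (w i) = w (i + s σ)) →
      (∀ i, w i * v (i + 1) = 0) → (∀ i, bil (w i) (v i) = 0) → ∀ M ∈ Fx Γ (cy s τ),
      M ≠ 0 ∨ w 0 ≠ 0 → M.det = -cub (mk 0 w) → Zr Γ p := by
    intro w hw c1 c2 M hM n0 e
    have c3 : ∀ i, norm (w i) = 0 := fun i => by
      have := star_mul_mul (w i) (v (i + 1))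
      rw [c1, mul_zero, eq_comm, smul_eq_zero] at this
      exact this.resolve_right (vv _)
    refine ⟨mk (fun i => M i i) fun i => (M (i + 1) (i + 2) / τ) • v i +
      (M (i + 2) (i + 1) / τ ^ 2) • ad v i + w i, fun σ m => ?_, fun e1 => ?_, ?_⟩
    · have e1 : ∀ i j, M (i + s σ) (j + s σ) = (τ / σ τ) ^ (j - i).val * σ (M i j) := fun i j => by
        simpa [cy] using (congrFun (congrFun (hM σ m) (i + s σ)) (j + s σ)).symm
      have : σ τ ≠ 0 := (map_ne_zero σ).2 τ0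
      refine h.mem_Fx m (fun i => by simp [e1]) fun i => ?_
      simp only [X_mk, h.q_add m, h.q_smul m, add_right_comm i (s σ), e1, add_sub_add_left_eq_sub,
        map_div₀, map_pow]
      rw [← hQ, hv σ m, hv' σ m, hw σ m]
      congr 3
      · rw [show ((2 - 1 : Fin 3)).val = 1 from rfl]
        field_simp
      · rw [show ((1 - 2 : Fin 3)).val = 2 from rfl]
        field_simp
    · have e2 : ∀ i, M i i = 0 := fun i => by simpa [D_zero] using congrFun (congrArg D e1) i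
      have e3 : ∀ i, M (i + 1) (i + 2) = 0 ∧ M (i + 2) (i + 1) = 0 ∧ w i = 0 := fun i => by
        have e4 := congrFun (congrArg X e1) i
        obtain ⟨f1, f2, f3⟩ := ad_facts vn c1 i
        have e5 := congrArg (bil · (v i)) e4
        have e6 := congrArg (bil · (ad v i)) e4
        simp [X_zero, bil_add_left, bil_smul_left, bil_self, vn, c2, f1, f2, f3, bil_comm (ad v i),
          t0, τ0] at e5 e6
        exact ⟨e6, e5, by simpa [X_zero, e5, e6] using e4⟩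
      refine n0.elim (fun n => n ?_) fun n => n (e3 0).2.2
      ext i j
      fin_cases i <;> fin_cases j
      exacts [e2 0, (e3 2).1, (e3 1).2.1, (e3 2).2.1, e2 1, (e3 0).1, (e3 1).1, (e3 0).2.1, e2 2]
    · rw [cub_det _ _ _ vn c3 c1 c2, ← hτ, ← neg_eq_iff_eq_neg.2 e, det_fin_three]
      simp only [Fin.reduceAdd]
      field_simp
      ring
  obtain ⟨M, hM, e | e⟩ := cy_eich hΓ hs hc τ0 (hτ ▸ fc _ (fx v hv)) (y := -cub (mk 0 w))
    fun σ m => by rw [map_neg, fc _ (fx w hw) σ m]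
  · exact key 0 (fun σ m i => hQ ▸ h.q_zero m i) (by simp) (by simp) M hM (Or.inl e.1)
      (by simp [e.2, cub, mk])
  · exact key w hw c1 c2 M hM (Or.inr w2) e

end Vale.Agent.P011LR
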