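import Vale.Agent.P011LR.RedH
import Vale.Agent.P011LC.Spin
import Vale.Agent.P011.E6.Coord

/-!
An action which permutes the frame cyclically is conjugate to the standard one.
-/

namespace Vale.Agent.P011LR

open Vale.Agent.P011.D4 Vale.Agent.P011.D4.Oct Vale.Agent.P011.E6 Vale.Agent.P011.E6.Alb
  Vale.Agent.P011LD Vale.Agent.P011LG Vale.Agent.P011LC Polynomial

section alg

variable {K : Type} [Field K] [CharZero K] [IsAlgClosed K] {a b c : Kˣ}

theorem cube {u : Oct a b c} (hu : norm u = 1) : ∃ β : Oct a b c, norm β = 1 ∧ β * β * β = u := by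
  have : ∃ θ : K, θ ^ 3 - 3 * θ = bil u 1 ∧ θ ^ 2 - 1 ≠ 0 := by
    obtain ⟨x, hx⟩ := IsAlgClosed.exists_root
      (Polynomial.X ^ 3 - C 3 * Polynomial.X - C (bil u 1) : K[X])
      (by rw [show degree _ = 3 by compute_degree!]; norm_num)
    simp only [IsRoot.def, eval_sub, eval_mul, eval_pow, eval_C, eval_X] at hx
    by_cases e : x ^ 2 - 1 = 0
    · exact ⟨-2 * x, by linear_combination hx - 9 * x * e, fun e' =>
        three_ne_zero (α := K) (by linear_combination e' - 4 * e)⟩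
    · exact ⟨x, by linear_combination hx, e⟩
  obtain ⟨θ, h1, h2⟩ := this
  obtain ⟨β, hβ⟩ : ∃ β, β = (θ ^ 2 - 1)⁻¹ • (u + θ • 1) := ⟨_, rfl⟩
  have e1 : norm β = 1 := by
    rw [hβ, Oct.norm_smul, norm_add, Oct.norm_smul, bil_smul_right, hu, Oct.norm_one, ← h1]
    field_simp
    ring
  have e2 : bil β 1 = θ := by
    rw [hβ, bil_smul_left, bil_add_left, bil_smul_left, bil_one_one', ← h1]
    field_simp
    ring
  have e3 : u = (θ ^ 2 - 1) • β - θ • 1 := by rw [hβ, smul_inv_smul₀ h2, add_sub_cancel_right]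
  refine ⟨β, e1, ?_⟩
  rw [mul_self_eq, sub_mul, smul_mul_oct, smul_mul_oct, mul_self_eq, e1, e2, one_mul, e3]
  module

omit [CharZero K] [IsAlgClosed K] in
theorem sing_x3 {y : Alb a b c} (h : y.d3 = 1) (h' : adj y = 0) : y.x3 = star (y.x1 * y.x2) := by
  have := congrArg Alb.x3 h'
  simp only [adj, h, one_smul, x3_zero] at this
  exact (sub_eq_zero.1 this).symm

theorem move {y : Alb a b c} (h : D y = 1) (h' : adj y = 0) :
    ∃ f ∈ Spin a b c, f (mk 1 1) = y := by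
  have n : ∀ i, norm (X y i) = 1 := fun i => by
    have := D_adj y i
    rw [h', h, D_zero] at this
    simpa using (sub_eq_zero.1 this.symm).symm
  have n1 : norm y.x1 = 1 := n 0
  obtain ⟨β, h1, h2⟩ := cube (u := y.x2 * star y.x1) (by
    rw [Oct.norm_mul, Oct.norm_star, n1, mul_one]; exact n 1)
  obtain ⟨t1, t2, t3, r, e1, e2⟩ : ∃ t1 t2 t3 : OE a b c, Rel t1 t2 t3 ∧ t1 1 = y.x1 ∧
      t2 1 = y.x2 := by
    refine ⟨_, _, _, ((rel_u _ n1).mul (rel_u _ (norm_star_one h1)).cyc).mul (rel_u _ h1), ?_, ?_⟩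
    · simp only [LinearEquiv.mul_apply, lm_apply, rm_apply, mul_one, mul_star_self, h1, one_smul]
    · simp only [LinearEquiv.mul_apply, bm_apply, rm_apply, star_star, one_mul, h2, mul_star_mul',
        n1, one_smul]
  have e3 := r.m3 1 1
  rw [mul_one, star_one, e1, e2, ← sing_x3 (congrFun h 2) h'] at e3
  exact ⟨_, dgm_mem r, Alb.ext (congrFun h 0).symm (congrFun h 1).symm (congrFun h 2).symm e1 e2 e3⟩

end alg

variable {k K : Type} [Field k] [Field K] [Algebra k K] {a b c : Kˣ}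
  {Γ : Subgroup (K ≃ₐ[k] K)} {p : (K ≃ₐ[k] K) → Alb a b c → Alb a b c}
  {π : (K ≃ₐ[k] K) → Fin 3 → Fin 3} {s : (K ≃ₐ[k] K) → Fin 3}

/-- Fixed orthogonal vectors of nonzero norm. -/
theorem perp' [Algebra.IsAlgebraic k K] [CharZero K] {Q : (K ≃ₐ[k] K) → Oct a b c → Oct a b c}
    (h : Sl Γ Q) (hb : ∀ σ ∈ Γ, ∀ u v, bil (Q σ u) (Q σ v) = σ (bil u v)) {v : Fin 4 → Oct a b c}
    (h1 : ∀ m, v m ∈ Fx Γ Q) (h2 : ∀ m l, m ≠ l → bil (v m) (v l) = 0)
    (h3 : ∀ m, v m = 0 ∨ norm (v m) ≠ 0) : ∃ x ∈ Fx Γ Q, norm x ≠ 0 ∧ ∀ m, bil x (v m) = 0 := by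
  by_contra hc
  have k0 : ∀ x ∈ Fx Γ Q, (∀ m, bil x (v m) = 0) → norm x = 0 := fun x e1 e2 => by
    by_contra e
    exact hc ⟨x, e1, e, e2⟩
  obtain ⟨x, x1, x2, x3⟩ := perp h hb (h1 0) (h1 1) (h1 2) (h1 3)
  have x4 : ∀ m, bil x (v m) = 0 := fun m => by fin_cases m; exacts [x3.1, x3.2.1, x3.2.2.1, x3.2.2.2]
  let B : Oct a b c → Oct a b c →ₗ[K] K := fun x =>
    { toFun := bil x, map_add' := bil_add_right x, map_smul' := fun t => bil_smul_right t x }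
  have : Submodule.span K (Fx Γ Q) ≤ (B x).ker := Submodule.span_le.2 fun y hy => by
    obtain ⟨z, hz⟩ : ∃ z, z = y + ∑ m, (-bil y (v m) / bil (v m) (v m)) • v m := ⟨_, rfl⟩
    have z1 : z ∈ Fx Γ Q := fun σ m => by
      rw [hz, h.add σ m, h.sum m, hy σ m]
      simp only [h.smul σ m, map_div₀, map_neg, ← hb σ m, hy σ m, h1 _ σ m]
    have z2 : ∀ m, bil z (v m) = 0 := fun m => by
      have : B (v m) z = 0 := by
        rw [hz, map_add, map_sum, Finset.sum_eq_single m (fun l _ e => by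
          rw [map_smul]; exact smul_eq_zero_of_right _ (h2 _ _ e.symm)) (by simp), map_smul]
        show bil (v m) y + _ * bil (v m) (v m) = 0
        rcases h3 m with e | e
        · simp [e]
        · rw [div_mul_cancel₀ _ (by simpa [bil_self] using e), bil_comm, add_neg_cancel]
      exact (bil_comm _ _).trans this
    have z3 : B x z = B x y := by
      rw [hz, map_add, map_sum, Finset.sum_eq_zero fun l _ => by
        rw [map_smul]; exact smul_eq_zero_of_right _ (x4 l), add_zero]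
    refine z3.symm.trans ?_
    show bil x z = 0
    rw [bil, k0 _ x1 x4, k0 _ z1 z2, k0 _ (h.add_mem x1 z1) fun m => by
      rw [bil_add_left, x4, z2, add_zero], sub_zero, sub_zero]
  exact x2 (eq_zero_of_bil fun y => this (h.span ▸ Submodule.mem_top (x := y)))

/-- Descent for octonion algebras. -/
theorem oct_desc [Algebra.IsAlgebraic k K] [CharZero K] {Q : (K ≃ₐ[k] K) → Oct a b c → Oct a b c}
    (h : Sl Γ Q) (hb : ∀ σ ∈ Γ, ∀ u v, bil (Q σ u) (Q σ v) = σ (bil u v))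
    (hm : ∀ σ ∈ Γ, ∀ u v, Q σ (u * v) = Q σ u * Q σ v) (h1 : ∀ σ ∈ Γ, Q σ 1 = 1) :
    ∃ (a' b' c' : Kˣ) (Φ : Oct a' b' c' ≃ₗ[K] Oct a b c), (∀ x y, Φ (x * y) = Φ x * Φ y) ∧
      ∀ σ ∈ Γ, σ a' = a' ∧ σ b' = b' ∧ σ c' = c' ∧ ∀ x, Q σ (Φ x) = Φ (P011LH.cm σ x) := by
  have z := h.zero_mem
  have n : ∀ x ∈ Fx Γ Q, ∀ σ ∈ Γ, σ (-norm x) = -norm x := fun x hx σ m => by
    have := hb σ m x x
    rw [hx σ m, bil_self, map_mul, map_ofNat] at this
    rw [map_neg, ← mul_left_cancel₀ two_ne_zero this]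
  obtain ⟨i, i1, i2, i3⟩ := perp' h hb (v := ![1, 0, 0, 0]) (by simp [Fin.forall_fin_succ, z]; exact h1)
    (by simp [Fin.forall_fin_succ]) (by simp [Fin.forall_fin_succ])
  have i4 : bil i 1 = 0 := i3 0
  obtain ⟨j, j1, j2, j3⟩ := perp' h hb (v := ![1, i, 0, 0])
    (by simp [Fin.forall_fin_succ, z, i1]; exact h1)
    (by simp [Fin.forall_fin_succ, i4, bil_comm 1]) (by simp [Fin.forall_fin_succ, i2])
  have B : Basic i j (Units.mk0 _ (neg_ne_zero.2 i2)) (Units.mk0 _ (neg_ne_zero.2 j2)) :=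
    ⟨i4, j3 0, (bil_comm _ _).trans (j3 1), (neg_neg _).symm, (neg_neg _).symm⟩
  have k1 : i * j ∈ Fx Γ Q := fun σ m => by rw [hm σ m, i1 σ m, j1 σ m]
  have k2 : bil i (i * j) = 0 := by
    simpa [bil_comm 1, B.j_one] using bil_mul_mul_left i 1 j
  have k3 : bil j (i * j) = 0 := by
    simpa [bil_comm 1, i4] using bil_mul_mul_right j 1 i
  obtain ⟨l, l1, l2, l3⟩ := perp' h hb (v := ![1, i, j, i * j])
    (by simp [Fin.forall_fin_succ, i1, j1, k1]; exact h1)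
    (by simp [Fin.forall_fin_succ, i4, bil_comm 1, B.j_one, B.ij_one, B.i_j, bil_comm j i, k2, k3,
      bil_comm (i * j) i, bil_comm (i * j) j])
    (by simp [Fin.forall_fin_succ, i2, j2, Oct.norm_mul])
  obtain ⟨Φ, e1, e2, -⟩ := exists_emb (Triple.trip (c' := Units.mk0 _ (neg_ne_zero.2 l2))
    ⟨B, ⟨l3 0, l3 1, l3 2, l3 3⟩, (neg_neg _).symm⟩)
  refine ⟨_, _, _, Φ, e2, fun σ m => ⟨n _ i1 σ m, n _ j1 σ m, n _ l1 σ m, fun x => ?_⟩⟩
  simp only [e1, emb, qemb, h.add σ m, h.smul σ m, hm σ m, h1 σ m, i1 σ m, j1 σ m, l1 σ m]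
  rfl

variable [NumberField k] [IsAlgClosure k K]

/-- Conjugation to an action which fixes the matrix with all entries equal to one. -/
theorem Fr.ones (h : Fr Γ p π) (hΓ : Op ⊤ (· ∈ Γ)) : ∃ (g : Alb a b c ≃ₗ[K] Alb a b c) (μ : K),
    μ ≠ 0 ∧ (∀ x, Alb.cub (g x) = μ * Alb.cub x) ∧ (∀ i, ∃ d : K, g (E i) = d • E i) ∧
    Fr Γ (P011LR.cj g p) π ∧ ∀ σ ∈ Γ, P011LR.cj g p σ (P011LR.mk 1 1) = P011LR.mk 1 1 := by
  have : CharZero K := charZero_of_injective_algebraMap (algebraMap k K).injective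
  have := IsAlgClosure.isAlgClosed k (K := K)
  obtain ⟨x, x1, x2, x3⟩ := sing_fr hΓ h.toNA fun σ m => h.fix1 m
  choose γ hγ using fun i => IsAlgClosed.exists_eq_mul_self (D x i)
  let u : Fin 3 → Kˣ := fun i => Units.mk0 (γ i) fun e => x3 i (by rw [hγ, e, mul_zero])
  have e1 : ∀ (u : Fin 3 → Kˣ) (y : Alb a b c) i, D (wt u y) i = (u i : K) ^ 2 * D y i :=
    fun u y i => by fin_cases i <;> rfl
  obtain ⟨f, f1, f2⟩ := move (y := wt u⁻¹ x) (funext fun i => by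
    have : γ i ≠ 0 := (u i).ne_zero
    simp only [e1, hγ, u, Pi.inv_apply, Units.val_inv_eq_inv_val, Units.val_mk0, Pi.one_apply]
    field_simp) (by rw [adj_wt, x2, wt_zero, smul_zero])
  have f3 : ∀ i, f (E i) = E i := fun i => by
    fin_cases i
    exacts [E0 (a := a) ▸ f1.2.1, E1 (a := a) ▸ f1.2.2.1, E2 (a := a) ▸ f1.2.2.2]
  have g1 : ∀ y, Alb.cub (f.trans (wtE u) y) = D x 0 * D x 1 * D x 2 * Alb.cub y := fun y => by
    rw [LinearEquiv.trans_apply, wtE_apply, cub_wt, f1.1, hγ, hγ, hγ, gam]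
    simp only [u, Units.val_mk0]
    ring
  have g2 : ∀ i, f.trans (wtE u) (E i) = D x i • E i := fun i => by
    rw [LinearEquiv.trans_apply, f3, wtE_apply, hγ]
    fin_cases i <;> ext1 <;> simp [wt, E, P011LR.mk, u, sq]
  have g3 : f.trans (wtE u) (P011LR.mk 1 1) = x := by
    rw [LinearEquiv.trans_apply, f2, wtE_apply, wt_wt_inv]
  have d1 : ∀ σ ∈ Γ, ∀ i, σ (D x i) = D x (π σ i) := fun σ m i => by rw [← h.D_eq m, x1 σ m]
  have n0 := mul_ne_zero (mul_ne_zero (x3 0) (x3 1)) (x3 2)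
  refine ⟨_, _, n0, g1, fun i => ⟨_, g2 i⟩, ⟨h.cj _ n0 (fun σ m => ?_) g1,
    fun σ m i => cj_eq _ ?_⟩, fun σ m => cj_eq _ (by rw [g3, x1 σ m])⟩
  · rw [← Fin.prod_univ_three, map_prod]
    exact Fintype.prod_bijective _ (h.bij m) _ _ (d1 σ m)
  · rw [g2, g2, h.smul σ m, h.perm σ m, d1 σ m]

/-- **The normal form.** -/
theorem cycn (h : Fr Γ p fun σ i => i + s σ) (hΓ : Op ⊤ (· ∈ Γ)) :
    ∃ (a' b' c' : Kˣ) (g : Alb a' b' c' ≃ₗ[K] Alb a b c) (μ : K), μ ≠ 0 ∧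
      (∀ x, cub (g x) = μ * cub x) ∧ (∀ i, ∃ d : K, g (E i) = d • E i) ∧
      ∀ σ ∈ Γ, σ a' = a' ∧ σ b' = b' ∧ σ c' = c' ∧ ∀ x, p σ (g x) =
        g (mk (fun i => σ (D x (i - s σ))) fun i => P011LH.cm σ (X x (i - s σ))) := by
  have : CharZero K := charZero_of_injective_algebraMap (algebraMap k K).injective
  obtain ⟨g, μ, g0, g1, g2, h1, h2⟩ := h.ones hΓ
  obtain ⟨Q, hQ⟩ : ∃ Q, Q = q (cj g p) fun σ i => i + s σ := ⟨_, rfl⟩
  have q1 : ∀ σ ∈ Γ, ∀ i, Q σ i 1 = 1 := fun σ m i => by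
    simpa [h2 σ m, hQ] using (h1.X_eq m (mk 1 1) i).symm
  have q2 : ∀ σ ∈ Γ, ∀ i u v, Q σ (i + 2) (star (u * v)) = star (Q σ i u * Q σ (i + 1) v) :=
    fun σ m i u v => hQ ▸ h1.q_even m (add_right_comm _ _ _) (add_right_comm _ _ _) u v
  have q3 : ∀ σ ∈ Γ, ∀ i u, Q σ (i + 1) u = Q σ i u := fun σ m i u => by
    have e1 := q2 σ m i u 1
    have e2 := q2 σ m i 1 u
    rw [q1 σ m, mul_one, mul_one] at e1
    rw [q1 σ m, one_mul, one_mul, e1] at e2
    exact (star_injective e2).symm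
  have q4 : ∀ σ ∈ Γ, ∀ i u, Q σ i u = Q σ 0 u := fun σ m i u => by
    fin_cases i
    exacts [rfl, q3 σ m 0 u, (q3 σ m 1 u).trans (q3 σ m 0 u)]
  obtain ⟨a', b', c', Φ, e1, e2⟩ := oct_desc (Γ := Γ) (Q := fun σ => Q σ 0)
    ⟨fun σ m => hQ ▸ h1.q_add m 0, fun σ m => hQ ▸ h1.q_smul m 0, fun σ m τ l u => by
      rw [← q4 σ m (0 + s τ), hQ]; exact h1.q_mul m l 0 u, fun u => Op.imp
      (Op.and (h1.cont (so 0 u)) (h1.cont (E 0))) fun σ m e => by
        rw [hQ, q, e.1, E_inj ((h1.perm σ m 0).symm.trans e.2), X_so]⟩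
    (fun σ m => hQ ▸ h1.q_bil m 0) (fun σ m u v => by
      have e1 := q2 σ m 0 u v
      have e2 := q2 σ m 0 (u * v) 1
      rw [q1 σ m, mul_one, mul_one, e1, q4 σ m (0 + 1)] at e2
      exact (star_injective e2).symm) fun σ m => q1 σ m 0
  refine ⟨a', b', c', (mapE Φ).trans g, μ, g0, fun x => by rw [← cub_mapE e1, ← g1]; rfl,
    fun i => ?_, fun σ m => ⟨(e2 σ m).1, (e2 σ m).2.1, (e2 σ m).2.2.1, fun x => ?_⟩⟩
  · have : mapE Φ (E i) = E i := by fin_cases i <;> simp [mapE_apply, omapA, E, mk]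
    rw [LinearEquiv.trans_apply, this]
    exact g2 i
  · have d : ∀ y, D (mapE Φ y) = D y := fun _ => rfl
    have e : ∀ y i, X (mapE Φ y) i = Φ (X y i) := fun y i => by fin_cases i <;> rfl
    refine (cj_apply g _).symm.trans (congrArg g (ext' (funext fun i => ?_) (funext fun i => ?_)))
    · simpa [d] using h1.D_eq m (mapE Φ x) (i - s σ)
    · have := h1.X_eq m (mapE Φ x) (i - s σ)
      rw [← hQ, q4 σ m, e, (e2 σ m).2.2.2, sub_add_cancel] at this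
      exact this.trans (((e _ i).trans (by rw [X_mk])).symm)

theorem cyca : P011LS.CYCA := fun k K _ _ _ _ _ a b c π p h h1 h3 => by
  have hE : ∀ {a b c : Kˣ} i, (P011LS.ee i : Alb a b c) = E i := fun i => by
    fin_cases i
    exacts [E0.symm, E1.symm, E2.symm]
  have e : ∀ π : Equiv.Perm (Fin 3), π ^ 3 = 1 → ∀ i, π i = i + π 0 := by decide
  obtain ⟨a', b', c', g, μ, g0, g1, g2, g3⟩ := cycn (s := fun σ => π σ 0)
    ⟨h, fun σ _ i => by rw [← hE, ← hE, h1, e _ (h3 σ)]⟩ ⟨∅, fun _ m _ => m⟩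
  have u : ∀ a : Kˣ, (∀ σ : K ≃ₐ[k] K, σ a = a) → ∃ a' : kˣ, up K a' = a := fun a ha => by
    obtain ⟨x, hx⟩ := fixed_top ha
    exact ⟨Units.mk0 x fun e => a.ne_zero (by rw [← hx, e, map_zero]), Units.ext hx⟩
  obtain ⟨a', rfl⟩ := u a' fun σ => (g3 σ trivial).1
  obtain ⟨b', rfl⟩ := u b' fun σ => (g3 σ trivial).2.1
  obtain ⟨c', rfl⟩ := u c' fun σ => (g3 σ trivial).2.2.1
  refine ⟨a', b', c', g, μ, g0, g1, fun i => by simpa only [hE] using g2 i, fun σ e x => ?_,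
    fun σ e x => ?_⟩ <;> rw [(g3 σ trivial).2.2.2, e]
  · rfl
  · exact congrArg g (Alb.ext (by simp [P011.E6H.ph]; rfl) (by simp [P011.E6H.ph]; rfl)
      (by simp [P011.E6H.ph]; rfl) (by simp [P011.E6H.ph]; rfl) rfl rfl)

end Vale.Agent.P011LR
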