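import Vale.Agent.P011LR.Fr

/-!
The cubic norm on the span of the frame, of an isotropic triple and of its adjoint.
-/

namespace Vale.Agent.P011LR

open Vale.Agent.P011.D4 Vale.Agent.P011.D4.Oct Vale.Agent.P011.E6 Vale.Agent.P011.E6.Alb
  Vale.Agent.P011LD Vale.Agent.P011LG

variable {K : Type} [Field K] [CharZero K] {a b c : Kˣ}

omit [CharZero K] in
theorem cyc (x y z : Oct a b c) : bil (x * y * z) 1 = bil (y * z * x) 1 := by
  rw [← tri1, tri3]

theorem det_aux (T : Oct a b c → Oct a b c → Oct a b c → K)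
    (hT : ∀ x y z, T x y z = bil (x * y * z) 1) {v1 v2 v3 w1 : Oct a b c} (w2 : Oct a b c)
    (n1 : norm v1 = 0) (n2 : norm v2 = 0) (n3 : norm v3 = 0) (h1 : w1 * v2 = 0)
    (h2 : bil w1 v1 = 0) :
    norm (star (v2 * v3)) = 0 ∧ bil v1 (star (v2 * v3)) = T v1 v2 v3 ∧
    bil (star (v2 * v3)) w1 = 0 ∧ bil v1 w1 = 0 ∧ T (star (v2 * v3)) v2 v3 = 0 ∧
    T v1 (star (v3 * v1)) (star (v1 * v2)) = 0 ∧ (∀ z, T w1 v2 z = 0) ∧
    T w1 (star (v3 * v1)) (star (v1 * v2)) = 0 ∧ T w1 (star (v3 * v1)) v3 = 0 ∧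
    T w1 w2 (star (v1 * v2)) = 0 ∧
    T (star (v2 * v3)) (star (v3 * v1)) (star (v1 * v2)) = T v1 v2 v3 ^ 2 := by
  have e := adj_adj_aux 0 0 0 v1 v2 v3
  simp only [n1, n2, n3, zero_smul, sub_zero, mul_zero, zero_add] at e
  have e1 : norm (star (v2 * v3)) = 0 := by rw [Oct.norm_star, Oct.norm_mul, n2, zero_mul]
  simp only [hT]
  refine ⟨e1, tri1' _ _ _, ?_, by rw [bil_comm, h2], ?_, ?_, fun z => ?_, ?_, ?_, ?_, ?_⟩
  · rw [tri1, h1, zero_mul, bil_zero_left]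
  · rw [← tri1, bil_self, e1, mul_zero]
  · rw [← tri1, e, bil_smul_left, bil_self, n1, mul_zero, mul_zero]
  · rw [h1, zero_mul, bil_zero_left]
  · rw [← tri1, e, bil_smul_left, bil_comm v1, h2, mul_zero]
  · rw [← tri2, bil_star_star, bil_mul_mul_left, n3, zero_mul]
  · have := bil_mul_mul w1 w2 v1 v2
    rw [h1, h2, bil_zero_right, add_zero, zero_mul] at this
    rw [← tri3, bil_star_star, this]
  · rw [← tri1, e, bil_smul_left, tri1', sq]

/-- The adjoint triple. -/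
def ad (v : Fin 3 → Oct a b c) (i : Fin 3) : Oct a b c := star (v (i + 1) * v (i + 2))

theorem cub_det (e m m' : Fin 3 → K) {v w : Fin 3 → Oct a b c} (hv : ∀ i, norm (v i) = 0)
    (hn : ∀ i, norm (w i) = 0) (h1 : ∀ i, w i * v (i + 1) = 0) (h2 : ∀ i, bil (w i) (v i) = 0) :
    cub (mk e fun i => m i • v i + m' i • ad v i + w i) = e 0 * e 1 * e 2 -
      cub (mk 0 v) * (e 0 * m 0 * m' 0 + e 1 * m 1 * m' 1 + e 2 * m 2 * m' 2) +
      cub (mk 0 v) * (m 0 * m 1 * m 2) + cub (mk 0 v) ^ 2 * (m' 0 * m' 1 * m' 2) +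
      cub (mk 0 w) := by
  have A := det_aux _ (fun _ _ _ => rfl) (w 1) (hv 0) (hv 1) (hv 2) (h1 0) (h2 0)
  have B := det_aux (fun y z x => bil (x * y * z) 1) (fun _ _ _ => cyc _ _ _) (w 2) (hv 1) (hv 2)
    (hv 0) (h1 1) (h2 1)
  have C := det_aux (fun z x y => bil (x * y * z) 1) (fun _ _ _ => (cyc _ _ _).symm) (w 0) (hv 2)
    (hv 0) (hv 1) (h1 2) (h2 2)
  have e0 : ad v 0 = star (v 1 * v 2) := rfl
  have e1 : ad v 1 = star (v 2 * v 0) := rfl
  have e2 : ad v 2 = star (v 0 * v 1) := rfl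
  simp only [cub, mk, e0, e1, e2, norm_add, Oct.norm_smul, bil_add_left, bil_smul_left,
    bil_smul_right, mul_add, add_mul, mul_smul_oct, smul_mul_oct, hv, hn, A, B, C, Pi.zero_apply]
  ring

/-- A nonzero vector which is killed by an isotropic vector and orthogonal to a given one. -/
theorem exists_w (v0 : Oct a b c) {v1 : Oct a b c} (n1 : norm v1 = 0) (h : v1 ≠ 0) :
    ∃ w, w ≠ 0 ∧ w * v1 = 0 ∧ bil w v0 = 0 := by
  by_contra hc
  have k1 : ∀ z, bil z (v0 * v1) = 0 → z * star v1 = 0 := fun z e => by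
    by_contra e1
    exact hc ⟨_, e1, by rw [mul_star_mul', n1, zero_smul], by rw [bil_mul_left', star_star, e]⟩
  have k2 : ∀ z, bil z (v0 * v1) = 0 → norm z = 0 := fun z e => by
    have := star_mul_mul z (star v1)
    rw [k1 z e, mul_zero, eq_comm, smul_eq_zero] at this
    exact this.resolve_right (star_ne_zero.2 h)
  obtain ⟨c0, hc0⟩ : ∃ c0, v0 * v1 = c0 := ⟨_, rfl⟩
  rw [hc0] at k2
  let i : Oct a b c := ⟨⟨0, 1, 0, 0⟩, 0⟩
  let j : Oct a b c := ⟨⟨0, 0, 1, 0⟩, 0⟩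
  have k3 : ∀ x y : Oct a b c, bil x y = 0 →
      bil y c0 ^ 2 * norm x + bil x c0 ^ 2 * norm y = 0 := fun x y e => by
    have := k2 (bil y c0 • x - bil x c0 • y) (by
      rw [bil_sub_left, bil_smul_left, bil_smul_left]; ring)
    rw [norm_sub, Oct.norm_smul, Oct.norm_smul, bil_smul_left, bil_smul_right, e] at this
    linear_combination this
  have ni : norm i = -a := by simp [i, Oct.norm, P011.MPQ.nrd]
  have nj : norm j = -b := by simp [j, Oct.norm, P011.MPQ.nrd]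
  have e1 := k3 1 i (by simp [bil_eq, i])
  have e2 := k3 1 j (by simp [bil_eq, j])
  have e3 := k3 i j (by simp [bil_eq, i, j])
  simp only [ni, nj, Oct.norm_one] at e1 e2 e3
  have e4 : 2 * a * b * bil 1 c0 ^ 2 = 0 := by linear_combination -e3 - a * e2 - b * e1
  simpa using k2 1 (by simpa using e4)

end Vale.Agent.P011LR
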