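import Vale.Agent.P011LR.Basic

/-!
Actions which permute the diagonal frame.
-/

namespace Vale.Agent.P011LR

open Vale.Agent.P011.D4 Vale.Agent.P011.D4.Oct Vale.Agent.P011.E6 Vale.Agent.P011.E6.Alb
  Vale.Agent.P011LD Vale.Agent.P011LG

section alg

variable {K : Type} [Field K] {a b c : Kˣ}

/-- The matrix with given entries. -/
def mk (d : Fin 3 → K) (u : Fin 3 → Oct a b c) : Alb a b c := ⟨d 0, d 1, d 2, u 0, u 1, u 2⟩

/-- The diagonal entries. -/
def D (x : Alb a b c) : Fin 3 → K := ![x.d1, x.d2, x.d3]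

/-- The other entries. -/
def X (x : Alb a b c) : Fin 3 → Oct a b c := ![x.x1, x.x2, x.x3]

/-- The diagonal frame. -/
def E (i : Fin 3) : Alb a b c := mk (Pi.single i 1) 0

/-- The slots. -/
def so (i : Fin 3) (u : Oct a b c) : Alb a b c := mk 0 (Pi.single i u)

@[simp] theorem D_mk (d : Fin 3 → K) (u : Fin 3 → Oct a b c) : D (mk d u) = d := by
  funext i; fin_cases i <;> rfl

@[simp] theorem X_mk (d : Fin 3 → K) (u : Fin 3 → Oct a b c) : X (mk d u) = u := by
  funext i; fin_cases i <;> rfl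

theorem mk_DX (x : Alb a b c) : mk (D x) (X x) = x := rfl

theorem ext' {x y : Alb a b c} (h : D x = D y) (h' : X x = X y) : x = y := by
  rw [← mk_DX x, h, h', mk_DX]

theorem D_add (x y : Alb a b c) : D (x + y) = D x + D y := by funext i; fin_cases i <;> rfl
theorem X_add (x y : Alb a b c) : X (x + y) = X x + X y := by funext i; fin_cases i <;> rfl
theorem D_smul (t : K) (x : Alb a b c) : D (t • x) = t • D x := by funext i; fin_cases i <;> rfl
theorem X_smul (t : K) (x : Alb a b c) : X (t • x) = t • X x := by funext i; fin_cases i <;> rfl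
theorem D_zero : D (0 : Alb a b c) = 0 := by funext i; fin_cases i <;> rfl
theorem X_zero : X (0 : Alb a b c) = 0 := by funext i; fin_cases i <;> rfl
theorem X_so (i : Fin 3) (u : Oct a b c) : X (so i u) i = u := by simp [so]

theorem E0 : (E 0 : Alb a b c) = e1 := by ext1 <;> simp [E, mk, e1]
theorem E1 : (E 1 : Alb a b c) = e2 := by ext1 <;> simp [E, mk, e2]
theorem E2 : (E 2 : Alb a b c) = e3 := by ext1 <;> simp [E, mk, e3]

theorem sum_E : ∑ i, (E i : Alb a b c) = dia 1 1 1 := by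
  rw [Fin.sum_univ_three]
  ext1 <;> simp [E, mk, dia]

theorem dec (x : Alb a b c) : x = ∑ i, D x i • E i + ∑ i, so i (X x i) := by
  rw [Fin.sum_univ_three, Fin.sum_univ_three]
  ext1 <;> simp [E, mk, so, D, X]

theorem tf_E (i : Fin 3) (x : Alb a b c) : tf (E i) x = D x i := by
  fin_cases i <;> simp [tf, E, mk, D]

theorem adj_E (i : Fin 3) : adj (E i : Alb a b c) = 0 := by
  fin_cases i <;> ext1 <;> simp [adj, E, mk]

theorem E_ne (i : Fin 3) : (E i : Alb a b c) ≠ 0 := fun h => by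
  simpa [E, D_zero] using congrFun (congrArg D h) i

theorem E_inj {i j : Fin 3} (h : (E i : Alb a b c) = E j) : i = j := by
  by_contra e
  simpa [E, e] using congrFun (congrArg D h) i

theorem so_add (i : Fin 3) (u v : Oct a b c) : so i (u + v) = so i u + so i v :=
  ext' (by simp [so, D_add]) (by simp [so, X_add, Pi.single_add])

theorem so_smul (i : Fin 3) (t : K) (u : Oct a b c) : so i (t • u) = t • so i u :=
  ext' (by simp [so, D_smul]) (by simp [so, X_smul, Pi.single_smul])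

theorem so_zero (i : Fin 3) : so i (0 : Oct a b c) = 0 :=
  ext' (by simp [so, D_zero]) (by simp [so, X_zero])

theorem so_inj {i : Fin 3} {u v : Oct a b c} (h : so i u = so i v) : u = v := by
  rw [← X_so i u, h, X_so]

theorem cross_E_so (i : Fin 3) (u : Oct a b c) : cross (E i) (so i u) = -so i u := by
  fin_cases i <;> ext1 <;> simp [cross, E, mk, so]

theorem eq_so {i : Fin 3} {x : Alb a b c} (h : cross (E i) x = -x) (h' : D x = 0) :
    x = so i (X x i) := by
  have h1 := congrArg X h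
  refine ext' (by simp [so, h']) (funext fun j => ?_)
  have h2 := congrFun h1 j
  fin_cases i <;> fin_cases j <;> simp [cross, E, mk, so, X] at h2 ⊢ <;> exact h2

theorem tf_so (i : Fin 3) (u v : Oct a b c) : tf (so i u) (so i v) = bil u v := by
  fin_cases i <;> simp [tf, mk, so]

theorem cross_so (i : Fin 3) (u v : Oct a b c) :
    cross (so i u) (so (i + 1) v) = so (i + 2) (star (u * v)) := by
  fin_cases i <;> ext1 <;> simp [cross, mk, so]

theorem X_adj (x : Alb a b c) (i : Fin 3) :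
    X (adj x) i = star (X x (i + 1) * X x (i + 2)) - D x i • X x i := by
  fin_cases i <;> rfl

theorem D_adj (x : Alb a b c) (i : Fin 3) :
    D (adj x) i = D x (i + 1) * D x (i + 2) - norm (X x i) := by
  fin_cases i <;> rfl

end alg

variable {k K : Type} [Field k] [Field K] [Algebra k K] {a b c a' b' c' : Kˣ}
  {Γ : Subgroup (K ≃ₐ[k] K)} {p : (K ≃ₐ[k] K) → Alb a b c → Alb a b c} {σ : K ≃ₐ[k] K}
  {π : (K ≃ₐ[k] K) → Fin 3 → Fin 3}

/-- The action permutes the diagonal frame. -/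
structure Fr (Γ : Subgroup (K ≃ₐ[k] K)) (p : (K ≃ₐ[k] K) → Alb a b c → Alb a b c)
    (π : (K ≃ₐ[k] K) → Fin 3 → Fin 3) : Prop extends NA Γ p where
  perm : ∀ σ ∈ Γ, ∀ i, p σ (E i) = E (π σ i)

/-- The action on the slots. -/
def q (p : (K ≃ₐ[k] K) → Alb a b c → Alb a b c) (π : (K ≃ₐ[k] K) → Fin 3 → Fin 3)
    (σ : K ≃ₐ[k] K) (i : Fin 3) (u : Oct a b c) : Oct a b c := X (p σ (so i u)) (π σ i)

namespace Fr

theorem mono (h : Fr Γ p π) {Γ' : Subgroup (K ≃ₐ[k] K)} (l : Γ' ≤ Γ) : Fr Γ' p π :=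
  ⟨h.toNA.mono l, fun σ s => h.perm σ (l s)⟩

variable (h : Fr Γ p π) (s : σ ∈ Γ)
include h s

theorem mulπ {τ : K ≃ₐ[k] K} (t : τ ∈ Γ) (i : Fin 3) : π (σ * τ) i = π σ (π τ i) :=
  E_inj (a := a) (b := b) (c := c) (by
    rw [← h.perm _ (Γ.mul_mem s t), h.mul σ s τ t, h.perm τ t, h.perm σ s])

omit s in
theorem oneπ (i : Fin 3) : π 1 i = i :=
  E_inj (a := a) (b := b) (c := c) (by rw [← h.perm _ Γ.one_mem, h.one])

theorem bij : Function.Bijective (π σ) := Finite.injective_iff_bijective.1 fun i j e => by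
  rw [← h.oneπ i, ← inv_mul_cancel σ, h.mulπ (Γ.inv_mem s) s, e, ← h.mulπ (Γ.inv_mem s) s,
    inv_mul_cancel, h.oneπ]

theorem fix1 : p σ (dia 1 1 1) = dia 1 1 1 := by
  rw [← sum_E, h.sum s]
  exact Fintype.sum_bijective _ (h.bij s) _ _ fun i => h.perm σ s i

theorem q_add (i : Fin 3) (u v : Oct a b c) : q p π σ i (u + v) = q p π σ i u + q p π σ i v := by
  rw [q, so_add, h.add σ s, X_add]; rfl

theorem q_smul (i : Fin 3) (t : K) (u : Oct a b c) : q p π σ i (t • u) = σ t • q p π σ i u := by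
  rw [q, so_smul, h.smul σ s, X_smul]; rfl

theorem q_zero (i : Fin 3) : q p π σ i 0 = 0 := by rw [q, so_zero, h.zero s, X_zero]; rfl

variable [CharZero K]

theorem D_eq (x : Alb a b c) (i : Fin 3) : D (p σ x) (π σ i) = σ (D x i) := by
  rw [← tf_E, ← tf_E, ← h.perm σ s, h.tf s (h.fix1 s)]

theorem so_eq (i : Fin 3) (u : Oct a b c) : p σ (so i u) = so (π σ i) (q p π σ i u) := by
  refine eq_so ?_ (funext fun j => ?_)
  · rw [← h.perm σ s, h.cross s (h.fix1 s), cross_E_so, h.neg s]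
  · obtain ⟨j, rfl⟩ := (h.bij s).2 j
    simp [h.D_eq s, so]

theorem X_eq (x : Alb a b c) (i : Fin 3) : X (p σ x) (π σ i) = q p π σ i (X x i) := by
  have e : p σ x = ∑ i, σ (D x i) • E (π σ i) + ∑ i, so (π σ i) (q p π σ i (X x i)) := by
    conv_lhs => rw [dec x]
    simp only [h.add σ s, h.sum s, h.smul σ s, h.perm σ s, h.so_eq s]
  rw [e]
  simp only [Fin.sum_univ_three, X_add, X_smul, so, E, X_mk, Pi.add_apply, smul_zero, zero_add,
    Pi.single_apply, (h.bij s).1.eq_iff]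
  fin_cases i <;> simp

theorem mem_Fx {x : Alb a b c} (h1 : ∀ i, σ (D x i) = D x (π σ i))
    (h2 : ∀ i, q p π σ i (X x i) = X x (π σ i)) : p σ x = x := by
  refine ext' (funext fun j => ?_) (funext fun j => ?_) <;> obtain ⟨j, rfl⟩ := (h.bij s).2 j
  · rw [h.D_eq s, h1]
  · rw [h.X_eq s, h2]

theorem q_bil (i : Fin 3) (u v : Oct a b c) :
    bil (q p π σ i u) (q p π σ i v) = σ (bil u v) := by
  rw [← tf_so (π σ i), ← h.so_eq s, ← h.so_eq s, h.tf s (h.fix1 s), tf_so]

theorem q_norm (i : Fin 3) (u : Oct a b c) : norm (q p π σ i u) = σ (norm u) := by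
  apply mul_left_cancel₀ (two_ne_zero (α := K))
  rw [← bil_self, h.q_bil s, bil_self, map_mul, map_ofNat]

theorem q_mul {τ : K ≃ₐ[k] K} (t : τ ∈ Γ) (i : Fin 3) (u : Oct a b c) :
    q p π (σ * τ) i u = q p π σ (π τ i) (q p π τ i u) := by
  rw [q, h.mul σ s τ t, h.mulπ s t, h.X_eq s, h.X_eq t, X_so]

/-- The products for the even permutations. -/
theorem q_even {i : Fin 3} (e1 : π σ (i + 1) = π σ i + 1) (e2 : π σ (i + 2) = π σ i + 2)
    (u v : Oct a b c) :
    q p π σ (i + 2) (star (u * v)) = star (q p π σ i u * q p π σ (i + 1) v) := by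
  refine so_inj (i := π σ i + 2) ?_
  rw [← cross_so, ← e1, ← e2, ← h.so_eq s, ← h.so_eq s, ← h.so_eq s, h.cross s (h.fix1 s),
    cross_so]

/-- The products for the odd permutations. -/
theorem q_odd {i : Fin 3} (e1 : π σ i = π σ (i + 1) + 1) (e2 : π σ (i + 2) = π σ (i + 1) + 2)
    (u v : Oct a b c) :
    q p π σ (i + 2) (star (u * v)) = star (q p π σ (i + 1) v * q p π σ i u) := by
  refine so_inj (i := π σ (i + 1) + 2) ?_
  rw [← cross_so, ← e1, ← e2, ← h.so_eq s, ← h.so_eq s, ← h.so_eq s, h.cross s (h.fix1 s),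
    cross_comm, cross_so]

omit s in
/-- The action on a slot which is fixed. -/
theorem sl (i : Fin 3) (e : ∀ σ ∈ Γ, π σ i = i) : Sl Γ fun σ => q p π σ i := by
  refine ⟨fun σ s => h.q_add s i, fun σ s => h.q_smul s i, fun σ s τ t u => ?_, fun u => ?_⟩
  · rw [h.q_mul s t, e τ t]
  · exact (h.cont (so i u)).imp fun S hS σ s e' => by rw [q, hS σ s e', e σ s, X_so]

end Fr

end Vale.Agent.P011LR
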