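import Vale.Agent.P011LR.Cy

/-!
Albert algebras over number fields are reduced.
-/

namespace Vale.Agent.P011LR

open Vale.Agent.P011.D4 Vale.Agent.P011.D4.Oct Vale.Agent.P011.E6 Vale.Agent.P011.E6.Alb
  Vale.Agent.P011LD Vale.Agent.P011LG Polynomial

section alg

variable {K : Type} [Field K] {a b c : Kˣ}

theorem lp_cub : LP (cub : Alb a b c → K) := fun x y =>
  ⟨C (cub x) + C (tf (adj x) y) * Polynomial.X + C (tf x (adj y)) * Polynomial.X ^ 2 +
    C (cub y) * Polynomial.X ^ 3, fun t => by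
    simp only [cub_add, cub_smul, adj_smul, tf_smul_right, eval_add, eval_mul, eval_pow, eval_C,
      eval_X]
    ring⟩

theorem lp_adj (z : Alb a b c) : LP fun y => tf (adj y) z := fun x y =>
  ⟨C (tf (adj x) z) + C (tf (cross x y) z) * Polynomial.X + C (tf (adj y) z) * Polynomial.X ^ 2,
    fun t => by
    simp only [adj_add, adj_smul, cross_smul_right, tf_add_left, tf_smul_left, eval_add, eval_mul,
      eval_pow, eval_C, eval_X]
    ring⟩

theorem lp_tf (z : Alb a b c) : LP fun y => tf y z := fun x y =>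
  ⟨C (tf x z) + C (tf y z) * Polynomial.X, fun t => by
    simp only [tf_add_left, tf_smul_left, eval_add, eval_mul, eval_C, eval_X, mul_comm t]⟩

theorem adj_one' : adj (dia 1 1 1 : Alb a b c) = dia 1 1 1 := by ext1 <;> simp [adj, dia]

theorem cubic_roots [IsAlgClosed K] [CharZero K] (s1 s2 s3 : K) : ∃ t : Fin 3 → K,
    s1 = t 0 + t 1 + t 2 ∧ s2 = t 0 * t 1 + t 1 * t 2 + t 2 * t 0 ∧ s3 = t 0 * t 1 * t 2 := by
  obtain ⟨x, hx⟩ := IsAlgClosed.exists_root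
    (Polynomial.X ^ 3 - C s1 * Polynomial.X ^ 2 + C s2 * Polynomial.X - C s3 : K[X])
    (by rw [show degree _ = 3 by compute_degree!]; norm_num)
  obtain ⟨r, hr⟩ := IsAlgClosed.exists_eq_mul_self ((s1 - x) ^ 2 - 4 * (s2 - x * (s1 - x)))
  simp only [IsRoot.def, eval_sub, eval_add, eval_mul, eval_pow, eval_C, eval_X] at hx
  refine ⟨![x, (s1 - x + r) / 2, (s1 - x - r) / 2], ?_, ?_, ?_⟩ <;> simp
  · ring
  · linear_combination (-1 / 4 : K) * hr
  · linear_combination (-1 / 4 : K) * x * hr - hx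

theorem shift [CharZero K] {t u : Fin 3 → K} (hu : ∀ i, ∃ j, u i = t j)
    (h0 : (t 0 - t 1) * (t 1 - t 2) * (t 2 - t 0) ≠ 0)
    (e : (u 0 - u 1) * (u 1 - u 2) * (u 2 - u 0) = (t 0 - t 1) * (t 1 - t 2) * (t 2 - t 0)) :
    ∃ s, ∀ i, u i = t (i + s) := by
  choose j hj using hu
  simp only [hj] at e ⊢
  rcases (by decide : ∀ j : Fin 3 → Fin 3, (∃ s, ∀ i, j i = i + s) ∨ j 0 = j 1 ∨ j 1 = j 2 ∨
    j 2 = j 0 ∨ ∃ s, ∀ i, j i = s - i) j with ⟨s, h⟩ | h | h | h | ⟨s, h⟩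
  · exact ⟨s, fun i => congrArg t (h i)⟩
  iterate 3 exact absurd (by rw [← e, h]; ring) h0
  refine absurd ?_ h0
  simp only [h] at e
  fin_cases s <;> simp only [Fin.zero_eta, Fin.mk_one, Fin.reduceFinMk, Fin.reduceSub, sub_self,
    sub_zero] at e <;> linear_combination (-1 / 2 : K) * e

end alg

variable {k K : Type} [Field k] [Field K] [Algebra k K] {a b c : Kˣ}
  {Γ : Subgroup (K ≃ₐ[k] K)} {p : (K ≃ₐ[k] K) → Alb a b c → Alb a b c}
  [NumberField k] [IsAlgClosure k K]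

/-- The case of a fixed unit. -/
theorem red1 (h : NA Γ p) (h1 : ∀ σ ∈ Γ, p σ (dia 1 1 1) = dia 1 1 1) (hΓ : Op ⊤ (· ∈ Γ)) {ι : K}
    (hi : ι * ι = -1) (hi' : ∀ σ ∈ Γ, σ ι = ι) : Zr Γ p := by
  have : CharZero K := charZero_of_injective_algebraMap (algebraMap k K).injective
  have := IsAlgClosure.isAlgClosed k (K := K)
  obtain ⟨o, ho⟩ : ∃ o, o = (dia 1 1 1 : Alb a b c) := ⟨_, rfl⟩
  have l1 := lp_tf o
  have l2 := lp_adj o
  have l3 := lp_cub (a := a) (b := b) (c := c)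
  obtain ⟨y, hy, d0⟩ := h.dn.den (f := fun y => tf y o ^ 2 * tf (adj y) o ^ 2 -
    4 * tf (adj y) o ^ 3 - 4 * tf y o ^ 3 * cub y + 18 * tf y o * tf (adj y) o * cub y -
    27 * cub y ^ 2) ((((((l1.pow 2).mul (l2.pow 2)).sub ((LP.const 4).mul (l2.pow 3))).sub
      (((LP.const 4).mul (l1.pow 3)).mul l3)).add ((((LP.const 18).mul l1).mul l2).mul l3)).sub
      ((LP.const 27).mul (l3.pow 2))) ⟨dia 0 1 (-1), by norm_num [ho, tf, adj, cub, dia]⟩
  obtain ⟨t, e1, e2, e3⟩ := cubic_roots (tf y o) (tf (adj y) o) (cub y)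
  obtain ⟨δ, hδ⟩ : ∃ δ, δ = (t 0 - t 1) * (t 1 - t 2) * (t 2 - t 0) := ⟨_, rfl⟩
  have f1 : ∀ σ ∈ Γ, σ (tf y o) = tf y o := fun σ m => by
    rw [← h.tf m (h1 σ m), hy σ m, ho, h1 σ m]
  have f2 : ∀ σ ∈ Γ, σ (tf (adj y) o) = tf (adj y) o := fun σ m => by
    rw [← h.tf_adj m, hy σ m, ho, h1 σ m]
  have f3 : ∀ σ ∈ Γ, σ (cub y) = cub y := fun σ m => by rw [← h.cub σ m, hy σ m]
  have e4 := (by rw [e1, e2, e3, hδ]; ring : tf y o ^ 2 * tf (adj y) o ^ 2 - 4 * tf (adj y) o ^ 3 -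
    4 * tf y o ^ 3 * cub y + 18 * tf y o * tf (adj y) o * cub y - 27 * cub y ^ 2 = δ * δ)
  have δ0 : δ ≠ 0 := fun e => d0 (by rw [e4, e, mul_zero])
  refine h.quad δ0 (fun σ m => by simp [← e4, f1 σ m, f2 σ m, f3 σ m, map_ofNat]) ?_
  have rt : ∀ x, x ^ 3 - tf y o * x ^ 2 + tf (adj y) o * x - cub y =
      (x - t 0) * (x - t 1) * (x - t 2) := fun x => by rw [e1, e2, e3]; ring
  have r0 : ∀ i, (t i - t 0) * (t i - t 1) * (t i - t 2) = 0 := fun i => by fin_cases i <;> simp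
  have : ∀ σ ∈ St Γ δ, ∃ s, ∀ i, σ (t i) = t (i + s) := fun σ m => by
    refine shift (fun i => ?_) (hδ ▸ δ0) (by simpa [hδ] using (mem_St.1 m).2)
    have := congrArg σ ((rt _).trans (r0 i))
    rw [map_sub, map_add, map_sub, map_mul, map_mul, map_pow, map_pow, f1 σ m.1, f2 σ m.1, f3 σ m.1,
      rt, map_zero, mul_eq_zero, mul_eq_zero, sub_eq_zero, sub_eq_zero, sub_eq_zero] at this
    rcases this with (e | e) | e <;> exact ⟨_, e⟩
  choose! s hs using this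
  let x : Fin 3 → Alb a b c := fun i =>
    ((t i - t (i + 1)) * (t i - t (i + 2)))⁻¹ • adj (y + -t i • o)
  have x1 : ∀ i, adj (x i) = 0 := fun i => by
    have : cub (y + -t i • o) = 0 := by
      rw [cub_add, adj_smul, cub_smul, tf_smul_right, tf_smul_right, ho, adj_one', cub_dia, ← ho]
      linear_combination -(rt _).trans (r0 i)
    rw [adj_smul, adj_adj, this, zero_smul, smul_zero]
  have x2 : x 0 + x 1 + x 2 = o := by
    have : adj o = o := by rw [ho, adj_one']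
    simp only [hδ, ne_eq, mul_eq_zero, not_or] at δ0
    obtain ⟨⟨g1, g2⟩, g3⟩ := δ0
    have g4 := sub_ne_zero.2 (sub_ne_zero.1 g1).symm
    have g5 := sub_ne_zero.2 (sub_ne_zero.1 g2).symm
    have g6 := sub_ne_zero.2 (sub_ne_zero.1 g3).symm
    simp only [x, adj_add, adj_smul, cross_smul_right, this, Fin.reduceAdd]
    match_scalars <;> field_simp <;> ring
  obtain ⟨φ, φ0, φ1, φ2, φ3⟩ := trans_frame (fun t => IsAlgClosed.exists_eq_mul_self t) (x1 0)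
    (x1 1) (x1 2) (by rw [x2, ho, cub_dia]; ring)
  have φ4 : ∀ i, φ (E i) = x i := fun i => by
    fin_cases i
    exacts [(congrArg φ E0).trans φ1, (congrArg φ E1).trans φ2, (congrArg φ E2).trans φ3]
  have φ5 : ∀ z, cub (φ z) = 1 * cub z := fun z => (El_le φ0 z).trans (one_mul _).symm
  refine (red0 (s := s) ⟨(h.mono inf_le_left).cj φ one_ne_zero (fun σ _ => map_one σ) φ5,
    fun σ m i => cj_eq φ ?_⟩ (op_St hΓ δ) hi fun σ m => hi' σ m.1).of_cj φ φ5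
  simp only [φ4, x, h.smul σ m.1, ← h.adj m.1 (h1 σ m.1), h.add σ m.1, hy σ m.1, ho, h1 σ m.1,
    map_inv₀, map_mul, map_sub, map_neg, hs σ m, add_right_comm i (s σ)]

/-- Conjugation to an action which fixes the unit. -/
theorem NA.unit (h : NA Γ p) : ∃ (g : Alb a b c ≃ₗ[K] Alb a b c) (μ : K), μ ≠ 0 ∧
    (∀ σ ∈ Γ, σ μ = μ) ∧ (∀ x, Alb.cub (g x) = μ * Alb.cub x) ∧
    ∀ σ ∈ Γ, P011LR.cj g p σ (dia 1 1 1) = dia 1 1 1 := by
  have : CharZero K := charZero_of_injective_algebraMap (algebraMap k K).injective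
  have := IsAlgClosure.isAlgClosed k (K := K)
  obtain ⟨x, hx, n0⟩ := h.dn.den lp_cub ⟨dia 1 1 1, by simp [cub_dia]⟩
  obtain ⟨l, hl⟩ := IsAlgClosed.exists_pow_nat_eq (Alb.cub x) three_pos
  have l0 : l ≠ 0 := fun e => n0 (by simp [← hl, e])
  have e : Alb.cub (l⁻¹ • x) = 1 := by rw [cub_smul, ← hl, ← mul_pow, inv_mul_cancel₀ l0, one_pow]
  obtain ⟨φ, φ0, φ1⟩ := trans_norm (fun t => IsAlgClosed.exists_eq_mul_self t)
    (e.trans_ne one_ne_zero)
  have e1 : (φ.trans (LinearEquiv.smulOfNeZero K _ l l0)) (dia 1 1 1) = x := by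
    rw [e] at φ1
    simp [φ1, smul_smul, l0]
  refine ⟨φ.trans (LinearEquiv.smulOfNeZero K _ l l0), _, n0, fun σ m => ?_, fun y => ?_,
    fun σ m => cj_eq _ ?_⟩
  · rw [← h.cub σ m, hx σ m]
  · rw [← hl, ← El_le φ0 y, ← cub_smul]
    rfl
  · rw [e1, hx σ m]

/-- **The cubic norm has a nontrivial rational zero.** -/
theorem red (hΓ : Op ⊤ (· ∈ Γ)) (h : NA Γ p) : Zr Γ p := by
  have : CharZero K := charZero_of_injective_algebraMap (algebraMap k K).injective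
  have := IsAlgClosure.isAlgClosed k (K := K)
  obtain ⟨ι, hi⟩ := IsAlgClosed.exists_eq_mul_self (-1 : K)
  obtain ⟨g, μ, h0, h1, h2, h3⟩ := h.unit
  refine .of_cj g h2 ((h.cj g h0 h1 h2).quad (δ := ι) (fun e => by simp [e] at hi)
    (fun σ _ => by rw [← hi, map_neg, map_one]) ?_)
  exact red1 ((h.cj g h0 h1 h2).mono inf_le_left) (fun σ m => h3 σ m.1) (op_St hΓ ι) hi.symm
    fun σ m => m.2

/-- **There is a rational singular element.** -/
theorem sing (hΓ : Op ⊤ (· ∈ Γ)) (h : NA Γ p) : ∃ x ∈ Fx Γ p, x ≠ 0 ∧ adj x = 0 := by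
  have : CharZero K := charZero_of_injective_algebraMap (algebraMap k K).injective
  obtain ⟨g, μ, h0, h1, h2, h3⟩ := h.unit
  have h4 := h.cj g h0 h1 h2
  have : ∃ x ∈ Fx Γ (cj g p), x ≠ 0 ∧ adj x = 0 := by
    obtain ⟨x, x1, x2, x3⟩ := red hΓ h4
    by_cases e : adj x = 0
    · exact ⟨x, x1, x2, e⟩
    · exact ⟨adj x, fun σ m => by rw [← h4.adj m (h3 σ m), x1 σ m], e,
        by rw [adj_adj, x3, zero_smul]⟩
  obtain ⟨x, x1, x2, x3⟩ := this
  refine ⟨g x, fun σ s => (cj_apply g x).symm.trans (congrArg g (x1 σ s)), by simpa using x2,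
    eq_zero_of_tf fun y => ?_⟩
  obtain ⟨z, rfl⟩ := g.surjective y
  exact (tf_adj_sim g.toLinearMap h2 x z).trans (by rw [x3, tf_zero_left, mul_zero])

end Vale.Agent.P011LR
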