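import Vale.Agent.P011LR.Red
import Vale.Agent.P011LS.IF
import Vale.Agent.P011LH.Base

/-!
Rational singular elements in general position with respect to a frame.
-/

namespace Vale.Agent.P011LR

open Vale.Agent.P011.D4 Vale.Agent.P011.D4.Oct Vale.Agent.P011.E6 Vale.Agent.P011.E6.Alb
  Vale.Agent.P011LD Vale.Agent.P011LG

theorem singS : P011LS.SING := fun _ _ _ _ _ _ _ _ _ _ _ _ h1 h2 => sing h1 h2

theorem cub_idx {K : Type} [Field K] {a b c : Kˣ} (x : Alb a b c) (i : Fin 3) :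
    cub x = D x 0 * D x 1 * D x 2 - ∑ j, D x j * norm (X x j) +
      bil (star (X x (i + 1) * X x (i + 2))) (X x i) := by
  rw [Fin.sum_univ_three, ← sub_sub, ← sub_sub]
  fin_cases i
  exacts [cub_eq1 x, cub_eq2 x, cub_eq3 x]

/-- A rational singular element with nonzero diagonal entries. -/
theorem sing_fr {k K : Type} [Field k] [Field K] [Algebra k K] [NumberField k] [IsAlgClosure k K]
    {a b c : Kˣ} {Γ : Subgroup (K ≃ₐ[k] K)} {p : (K ≃ₐ[k] K) → Alb a b c → Alb a b c}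
    (hΓ : Op ⊤ (· ∈ Γ)) (h : NA Γ p) (h1 : ∀ σ ∈ Γ, p σ (dia 1 1 1) = dia 1 1 1) :
    ∃ x ∈ Fx Γ p, adj x = 0 ∧ ∀ i, D x i ≠ 0 := by
  have : CharZero K := charZero_of_injective_algebraMap (algebraMap k K).injective
  have := IsAlgClosure.isAlgClosed k (K := K)
  obtain ⟨y, y1, y2, y3⟩ := sing hΓ h
  obtain ⟨w, w1, w2⟩ := h.dn.dens Finset.univ (f := fun i w => tf (P011LS.U w y) (E i))
    (fun i _ => by
      simpa only [P011LS.U, tf_add_left, tf_smul_left, tf_cross] using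
        ((lp_tf y).mul (lp_tf (E i))).add ((LP.const (-1)).mul (lp_adj (cross y (E i)))))
    fun i _ => P011LS.exists_U (fun t => IsAlgClosed.exists_eq_mul_self t) y3 y2 (E_ne i)
  refine ⟨P011LS.U w y, fun σ m => ?_, P011LS.adj_U w y3, fun i => ?_⟩
  · rw [P011LS.U, h.add σ m, h.smul σ m, h.smul σ m, ← h.tf m (h1 σ m), ← h.cross m (h1 σ m),
      ← h.adj m (h1 σ m), w1 σ m, y1 σ m, map_neg, map_one]
  · rw [← tf_E, tf_comm]
    exact w2 i (Finset.mem_univ i)

open P011LH in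
theorem redH : RED := fun k K _ _ _ _ _ a b c Γ π P hΓ hπ h hs => by
  have : CharZero K := charZero_of_injective_algebraMap (algebraMap k K).injective
  let p : (K ≃ₐ[k] K) → Alb a b c → Alb a b c := fun σ x => mk (ac σ (π σ) (D x)) (P σ (X x))
  have hp : NA Γ p := by
    refine ⟨⟨fun σ m x y => ext' ?_ ?_, fun σ m t x => ext' ?_ ?_, fun σ m τ l x => ?_,
      fun x => ?_⟩, fun σ m x => ?_⟩
    · simp [p, D_add]
    · simp [p, X_add, h.add σ m]
    · funext i
      simp [p, D_smul, ac_apply]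
    · simp [p, X_smul, h.smul σ m]
    · simp [p, h.mul σ m τ l, ac_mul]
    · refine ((hπ.and (Op.vec Γ (D x))).and (h.cont (X x))).imp fun σ _ e => ext' ?_ ?_
      · rw [D_mk, e.1.1]
        exact e.1.2
      · simpa [p] using e.2
    · have e1 := (hs σ m).bil (pr (X x) (X x)) (X x) 0
      have e2 := fun i => (hs σ m).norm (X x) i
      rw [(hs σ m).pr_self, one_smul] at e1
      rw [cub_idx _ (π σ 0), cub_idx x 0, ← Equiv.sum_comp (π σ)]
      simp only [sh_val, Units.val_one, Pi.one_apply, one_mul, pr] at e1 e2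
      simp only [p, D_mk, X_mk, prod_ac, ac_perm, map_add, map_sub, map_sum, map_mul, e1, e2]
  obtain ⟨x, x1, x2, x3⟩ := sing_fr hΓ hp fun σ m => ext' (by
    funext i
    fin_cases i <;> simp [p, show D (dia 1 1 1 : Alb a b c) = 1 from D_mk 1 0]) (by
    simp [p, show X (dia 1 1 1 : Alb a b c) = 0 from X_mk 1 0, h.zero m])
  refine ⟨D x, X x, fun σ m => by simpa [p] using congrArg X (x1 σ m), fun i => ⟨x3 i, ?_, ?_⟩⟩
  · exact (sub_eq_zero.1 (by rw [← D_adj, x2, D_zero]; rfl)).symm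
  · exact sub_eq_zero.1 (by rw [← X_adj, x2, X_zero]; rfl)

end Vale.Agent.P011LR
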